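import Vale.Agent.P076.Statement

open MeasureTheory Filter Topology Set
open scoped ENNReal

namespace Vale.Agent.N076

open Vale.Agent.P076

variable {n : ℕ}

/-- `e^{itΔ}f(x)` is defined and equal to `z` (here `g = f̂`). -/
def Value (g : (Fin n → ℝ) → ℂ) (t : ℝ) (x : Fin n → ℝ) (z : ℂ) : Prop :=
  Tendsto (fun a => evolve g t a x) (𝓝[>] 0) (𝓝 z)

/-- Convergence at `x`: `e^{itΔ}f(x)` is defined for all small `t > 0` and tends to `f x`. -/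
def ConvAt (f g : (Fin n → ℝ) → ℂ) (x : Fin n → ℝ) : Prop :=
  ∃ u : ℝ → ℂ, (∀ᶠ t in 𝓝[>] (0 : ℝ), Value g t x (u t)) ∧ Tendsto u (𝓝[>] 0) (𝓝 (f x))

/-- `‖f‖_{H^s}`, where `g = f̂`. -/
noncomputable def sobolev (g : (Fin n → ℝ) → ℂ) (s : ℝ) : ℝ≥0∞ :=
  (ENNReal.ofReal ((2 * Real.pi) ^ n)⁻¹ *
    ∫⁻ ξ, ENNReal.ofReal ((1 + nrm ξ ^ 2) ^ s * ‖g ξ‖ ^ 2)) ^ (1 / 2 : ℝ)

/-- The `L²` norm of the part of `f` with frequencies in `S`, where `g = f̂`. -/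
noncomputable def part (g : (Fin n → ℝ) → ℂ) (S : Set (Fin n → ℝ)) : ℝ≥0∞ :=
  (ENNReal.ofReal ((2 * Real.pi) ^ n)⁻¹ * ∫⁻ ξ in S, ENNReal.ofReal (‖g ξ‖ ^ 2)) ^ (1 / 2 : ℝ)

/-- The Besov norm `‖f‖_{B^s_{2,q}} = ‖f‖₂ + (∑_j (2^{js} ‖P_j f‖₂)^q)^{1/q}`, where `g = f̂` and
`P_j` restricts to the frequencies `2^j ≤ |ξ| < 2^{j+1}`. -/
noncomputable def besov (g : (Fin n → ℝ) → ℂ) (s q : ℝ) : ℝ≥0∞ :=
  part g univ + (∑' j : ℕ, (ENNReal.ofReal (2 ^ (j * s)) *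
    part g {ξ | 2 ^ j ≤ nrm ξ ∧ nrm ξ < 2 ^ (j + 1)}) ^ q) ^ (1 / q)

/-- The maximal function `sup_{|t| < r} |e^{itΔ}f(x)|` (with `limsup_{a ↓ 0}` of the modulus of the
regularised integral, which is `|e^{itΔ}f(x)|` when this value is defined). -/
noncomputable def maxFn (g : (Fin n → ℝ) → ℂ) (r : ℝ) (x : Fin n → ℝ) : ℝ≥0∞ :=
  ⨆ t ∈ Ioo (-r) r, limsup (fun a => ENNReal.ofReal ‖evolve g t a x‖) (𝓝[>] 0)

end Vale.Agent.N076
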