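import Vale.Agent.N076.Norms

/-!
# P076: convergence and the maximal estimate for Besov data, from the single-scale estimate
-/

open MeasureTheory Complex FourierTransform Filter Topology Set
open scoped ENNReal NNReal

namespace Vale.Agent.N076

open Vale.Agent.P076 Vale.Agent.P076.H791 Vale.Agent.P076.H618

variable {n : ℕ} {f g : (Fin n → ℝ) → ℂ} {σ q p₀ : ℝ}

/-- the weak type estimate for integrable data -/
def WN (n : ℕ) (σ q p₀ : ℝ) : Prop := ∀ r : ℕ, ∃ D : ℝ, 0 < D ∧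
  ∀ G : E n → ℂ, Measurable G → Integrable G → ∀ N ε : ℝ, 0 < N → 0 < ε →
    NB σ q G ≤ ENNReal.ofReal N → volume (mset G (Ioo (-(r : ℝ)) r) ε ∩ Metric.ball 0 r) ≤
      ENNReal.ofReal ((D * N / ε) ^ p₀)

theorem WN_of_SLat (hσ : 0 < σ) (hS : SLat n σ) : ∃ q p₀ : ℝ, 2 < q ∧ q < p₀ ∧ WN n σ q p₀ := by
  obtain ⟨l, hl0, hl1, hT⟩ := TB_of_SLat hσ hS
  have h1 : 0 < 2 - l := by linarith
  have h2 : 0 < 2 + l := by linarith
  have h3 : 0 < 1 - l := by linarith
  have hq : (4 / (2 + l)).HolderConjugate (4 / (2 - l)) := by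
    refine ⟨?_, by positivity, by positivity⟩
    field_simp
    ring
  refine ⟨4 / (2 - l), 2 / (1 - l), ?_, ?_, fun r => weak_nice hσ.le hl0.le hl1 hq ?_
    (hT _ (by positivity) ?_ ?_) r⟩
  · rw [lt_div_iff₀ h1]
    linarith
  · rw [div_lt_div_iff₀ h1 h3]
    linarith
  · rw [div_le_iff₀ h2]
    linarith
  · rw [div_div, div_le_one (by positivity)]
    linarith
  · rw [div_div, ← mul_div_assoc, lt_div_iff₀ (by positivity)]
    linarith

lemma tendsto_reg : Tendsto (fun b : ℝ => 4 * Real.pi ^ 2 * b) (𝓝[>] 0) (𝓝[>] 0) := by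
  refine tendsto_nhdsWithin_iff.2 ⟨?_, ?_⟩
  · have : Tendsto (fun b : ℝ => 4 * Real.pi ^ 2 * b) (𝓝 0) (𝓝 (4 * Real.pi ^ 2 * 0)) :=
      (continuous_const.mul continuous_id).tendsto 0
    rw [mul_zero] at this
    exact this.mono_left nhdsWithin_le_nhds
  · filter_upwards [self_mem_nhdsWithin] with b hb
    have hb' : (0 : ℝ) < b := hb
    exact Set.mem_Ioi.2 (by positivity)

/-- values at all times, as limits of the evolutions of integrable data -/
theorem values (hq : 0 < q) (hp : 1 ≤ p₀) (hW : WN n σ q p₀) (hfg : IsFourierPair f g)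
    (hB : besov g σ q < ⊤) : ∃ H : ℕ → E n → ℂ, (∀ m, Measurable (H m) ∧ Integrable (H m) ∧
      NB σ q (H m) ≤ besov g σ q) ∧ ∀ᵐ x, ∃ u : ℝ → ℂ, Continuous u ∧ u 0 = f x ∧
        (∀ t, Value g t x (u t)) ∧
        ∀ t, Tendsto (fun m => evo (H m) (toE x) (2 * Real.pi * t) 0) atTop (𝓝 (u t)) := by
  obtain ⟨F, hf, hg⟩ := exists_lp hfg
  rw [besov_congr hg, besov_freq] at hB ⊢
  set G : E n → ℂ := fun η => (𝓕 F : Lp ℂ 2 (volume : Measure (E n))) η with hG
  have hGm : Measurable G := (Lp.stronglyMeasurable _).measurable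
  have hE : En (fun _ => 1) G < ⊤ := En_one_lt_top (Lp.memLp _)
  obtain ⟨φ, hφ⟩ := pos_gen (N := NB σ q) (fun G H h => NB_mono hq h) (fun r ε hε => by
    obtain ⟨D, hD, h⟩ := hW r
    have hm : 0 < min ε 1 := lt_min hε one_pos
    refine ⟨ENNReal.ofReal (ε * min ε 1 / D), ENNReal.ofReal_pos.2 (by positivity),
      fun G h1 h2 h3 => (h G h1 h2 _ ε (by positivity) hε h3).trans (ENNReal.ofReal_le_ofReal ?_)⟩
    have e : D * (ε * min ε 1 / D) / ε = min ε 1 := by field_simp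
    rw [e]
    calc min ε 1 ^ p₀ ≤ min ε 1 ^ (1 : ℝ) :=
          Real.rpow_le_rpow_of_exponent_ge hm (min_le_right _ _) hp
      _ ≤ ε := by rw [Real.rpow_one]; exact min_le_left _ _) F hG (NB_cut hq hGm hB)
  refine ⟨fun m => cut G (φ m), fun m => ⟨(nice_cut hGm hE _).meas, (nice_cut hGm hE _).integrable,
    NB_mono hq (norm_cut_le G _)⟩, ?_⟩
  filter_upwards [ae_toE hφ, hf] with x hx hfx
  obtain ⟨u, hu, hu0, hut, hum⟩ := hx
  refine ⟨fun t => u (2 * Real.pi * t), hu.comp (continuous_const.mul continuous_id), ?_,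
    fun t => ?_, fun t => hum _⟩
  · simp only [mul_zero]
    rw [hu0, hfx]
    rfl
  · refine ((hut (2 * Real.pi * t)).comp tendsto_reg).congr fun a => ?_
    rw [evolve_congr hg, evolve_freq, schrReg_eq_evo]
    rfl

lemma maxFn_eq {x : Fin n → ℝ} {u : ℝ → ℂ} (h : ∀ t, Value g t x (u t)) (r : ℝ) :
    maxFn g r x = ⨆ t ∈ Ioo (-r) r, ENNReal.ofReal ‖u t‖ := by
  simp only [maxFn, fun t => (ENNReal.tendsto_ofReal (h t).norm).limsup_eq]

theorem max_meas (hq : 0 < q) (hp : 1 ≤ p₀) (hW : WN n σ q p₀) (hfg : IsFourierPair f g)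
    (hB : besov g σ q < ⊤) (r : ℝ) : AEMeasurable (maxFn g r) := by
  obtain ⟨H, hH, h⟩ := values hq hp hW hfg hB
  refine ⟨fun x => ⨆ t : ℚ, ⨆ (_ : (t : ℝ) ∈ Ioo (-r) r),
    liminf (fun m => ENNReal.ofReal ‖evo (H m) (toE x) (2 * Real.pi * t) 0‖) atTop, ?_, ?_⟩
  · refine Measurable.iSup fun t => Measurable.iSup_Prop _ (Measurable.liminf fun m => ?_)
    exact (((continuous_evo_x (hH m).2.1 _).measurable.comp
      measurePreserving_toE.measurable).norm).ennreal_ofReal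
  · filter_upwards [h] with x hx
    obtain ⟨u, hu, -, h1, h2⟩ := hx
    rw [maxFn_eq h1, iSup_rat (v := fun t => ENNReal.ofReal ‖u t‖)
      (ENNReal.continuous_ofReal.comp hu.norm)]
    simp only [fun t => (ENNReal.tendsto_ofReal (h2 t).norm).liminf_eq]

theorem max_weak (hq : 0 < q) (hp : 1 ≤ p₀) (hW : WN n σ q p₀) (r : ℝ) : ∃ D : ℝ, 0 < D ∧
    ∀ f g : (Fin n → ℝ) → ℂ, IsFourierPair f g → ∀ N ε : ℝ, 0 < N → 0 < ε →
      besov g σ q ≤ ENNReal.ofReal N →
      volume.restrict {x | nrm x < r} {x | ENNReal.ofReal ε < maxFn g r x} ≤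
        ENNReal.ofReal ((D * N / ε) ^ p₀) := by
  obtain ⟨R, hR⟩ := exists_nat_ge (2 * Real.pi * |r|)
  obtain ⟨D, hD, hw⟩ := hW R
  refine ⟨D, hD, fun f g hfg N ε hN hε hB => ?_⟩
  obtain ⟨H, hH, h⟩ := values hq hp hW hfg (hB.trans_lt ENNReal.ofReal_lt_top)
  set A : ℕ → Set (E n) := fun m => mset (H m) (Ioo (-(R : ℝ)) R) ε ∩ Metric.ball 0 R with hA
  have hAm : ∀ m, MeasurableSet (A m) := fun m =>
    (isOpen_mset (hH m).2.1 _ _).measurableSet.inter Metric.isOpen_ball.measurableSet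
  set B : ℕ → Set (E n) := fun M => ⋂ m ≥ M, A m with hBd
  have hBm : MeasurableSet (⋃ M, B M) :=
    MeasurableSet.iUnion fun M => MeasurableSet.biInter (to_countable _) fun m _ => hAm m
  have hmono : Monotone B := fun M M' hM => biInter_subset_biInter_left fun m hm => hM.trans hm
  have hpi := Real.pi_gt_three
  have h1 : volume.restrict {x | nrm x < r} {x | ENNReal.ofReal ε < maxFn g r x} ≤
      volume (toE ⁻¹' ⋃ M, B M) := by
    rw [Measure.restrict_apply' (measurableSet_lt measurable_nrm measurable_const)]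
    refine measure_mono_ae ?_
    filter_upwards [h] with x hx hx'
    obtain ⟨u, -, -, h1, h2⟩ := hx
    have h3 : ENNReal.ofReal ε < maxFn g r x := hx'.1
    have h4 : nrm x < r := hx'.2
    rw [maxFn_eq h1, lt_iSup_iff] at h3
    obtain ⟨t, h3⟩ := h3
    rw [lt_iSup_iff] at h3
    obtain ⟨ht, h3⟩ := h3
    have h5 : ε < ‖u t‖ := (ENNReal.ofReal_lt_ofReal_iff_of_nonneg hε.le).1 h3
    obtain ⟨M, hM⟩ := eventually_atTop.1 ((h2 t).norm.eventually (lt_mem_nhds h5))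
    have h6 := le_abs_self r
    have h7 := abs_nonneg r
    refine mem_iUnion.2 ⟨M, mem_iInter₂.2 fun m hm =>
      ⟨⟨2 * Real.pi * t, ⟨?_, ?_⟩, hM m hm⟩, ?_⟩⟩
    · nlinarith [ht.1]
    · nlinarith [ht.2]
    · rw [mem_ball_zero_iff, ← nrm_eq]
      nlinarith
  rw [measurePreserving_toE.measure_preimage hBm.nullMeasurableSet, hmono.measure_iUnion] at h1
  refine h1.trans (iSup_le fun M => ?_)
  exact (measure_mono (biInter_subset_of_mem (show M ∈ {m | m ≥ M} from le_refl M))).trans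
    (hw _ (hH M).1 (hH M).2.1 N ε hN hε ((hH M).2.2.trans hB))

theorem max_strong (hq : 0 < q) (hp₀ : 1 ≤ p₀) (hW : WN n σ q p₀) {p : ℝ} (hp : 0 < p)
    (hpp : p < p₀) (r : ℝ) : ∃ C : ℝ≥0, ∀ f g : (Fin n → ℝ) → ℂ, IsFourierPair f g →
      (∫⁻ x in {x | nrm x < r}, maxFn g r x ^ p) ^ (1 / p) ≤ C * besov g σ q := by
  obtain ⟨D, hD, hw⟩ := max_weak hq hp₀ hW r
  have hfin : volume {x : Fin n → ℝ | nrm x < r} < ⊤ := by
    have e : {x : Fin n → ℝ | nrm x < r} = toE ⁻¹' Metric.ball 0 r := by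
      ext x
      simp only [mem_ofPred_eq, mem_preimage, mem_ball_zero_iff, nrm_eq]
    rw [e, measurePreserving_toE.measure_preimage measurableSet_ball.nullMeasurableSet]
    exact measure_ball_lt_top
  obtain ⟨K, hK, hs⟩ := strong_of_weak (μ := volume.restrict {x : Fin n → ℝ | nrm x < r})
    (m := (volume {x : Fin n → ℝ | nrm x < r}).toReal + 1) (by positivity) (by
      rw [Measure.restrict_apply_univ, ENNReal.ofReal_add ENNReal.toReal_nonneg zero_le_one,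
        ENNReal.ofReal_toReal hfin.ne]
      exact le_self_add) hp hpp
  have hKD : 0 < K * D := by positivity
  refine ⟨(K * D).toNNReal, fun f g hfg => ?_⟩
  change _ ≤ ENNReal.ofReal (K * D) * _
  refine ENNReal.le_of_forall_pos_le_add fun ε hε hb => ?_
  have hB : besov g σ q < ⊤ := by
    by_contra h
    rw [not_lt, top_le_iff] at h
    rw [h, ENNReal.mul_top (ENNReal.ofReal_pos.2 hKD).ne'] at hb
    exact lt_irrefl _ hb
  have hε' : (0 : ℝ) < ε := hε
  set b : ℝ := (besov g σ q).toReal with hb'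
  have hb0 : 0 ≤ b := ENNReal.toReal_nonneg
  have hbe : besov g σ q = ENNReal.ofReal b := (ENNReal.ofReal_toReal hB.ne).symm
  have h1 := hs (maxFn g r) (max_meas hq hp₀ hW hfg hB r).restrict (D * (b + ε / (K * D)))
    (by positivity) fun e he => hw f g hfg _ e (by positivity) he (by
      rw [hbe]
      exact ENNReal.ofReal_le_ofReal (le_add_of_nonneg_right (by positivity)))
  refine h1.trans (le_of_eq ?_)
  rw [hbe, ← ENNReal.ofReal_mul hKD.le, ← ENNReal.ofReal_coe_nnreal,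
    ← ENNReal.ofReal_add (by positivity) hε'.le]
  congr 1
  field_simp

lemma convAt_of {x : Fin n → ℝ} {u : ℝ → ℂ} (h1 : Continuous u) (h2 : u 0 = f x)
    (h3 : ∀ t, Value g t x (u t)) : ConvAt f g x :=
  ⟨u, Eventually.of_forall h3, h2 ▸ (h1.tendsto 0).mono_left nhdsWithin_le_nhds⟩

/-- **Besov data and the maximal estimate** -/
theorem main_of_SLat (hσ : 0 < σ) (hS : SLat n σ) : ∃ q : ℝ, 2 < q ∧
    (∀ f g : (Fin n → ℝ) → ℂ, IsFourierPair f g → besov g σ q ≤ 2 * sobolev g σ) ∧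
    (∀ f g : (Fin n → ℝ) → ℂ, IsFourierPair f g → besov g σ q < ⊤ →
      (∀ᵐ x, ConvAt f g x) ∧
      (∀ᵐ x, ∃ u : ℝ → ℂ, Continuous u ∧ u 0 = f x ∧ ∀ t, Value g t x (u t)) ∧
      ∀ r : ℝ, AEMeasurable (maxFn g r)) ∧
    ∀ p r : ℝ, 0 < p → p ≤ q → ∃ C : ℝ≥0, ∀ f g : (Fin n → ℝ) → ℂ, IsFourierPair f g →
      (∫⁻ x in {x | nrm x < r}, maxFn g r x ^ p) ^ (1 / p) ≤ C * besov g σ q ∧
      (∫⁻ x in {x | nrm x < r}, maxFn g r x ^ p) ^ (1 / p) ≤ C * sobolev g σ := by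
  obtain ⟨q, p₀, hq, hqp, hW⟩ := WN_of_SLat hσ hS
  have hq0 : 0 < q := by linarith
  have hp₀ : 1 ≤ p₀ := by linarith
  refine ⟨q, hq, fun f g _ => besov_le_sobolev hσ.le hq.le g, fun f g hfg hB => ?_,
    fun p r hp hpq => ?_⟩
  · obtain ⟨H, -, h⟩ := values hq0 hp₀ hW hfg hB
    refine ⟨h.mono fun x ⟨u, h1, h2, h3, _⟩ => convAt_of h1 h2 h3,
      h.mono fun x ⟨u, h1, h2, h3, _⟩ => ⟨u, h1, h2, h3⟩, max_meas hq0 hp₀ hW hfg hB⟩
  · obtain ⟨C, hC⟩ := max_strong hq0 hp₀ hW hp (hpq.trans_lt hqp) r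
    refine ⟨C * 2, fun f g hfg => ⟨(hC f g hfg).trans ?_, (hC f g hfg).trans ?_⟩⟩
    · push_cast
      rw [mul_assoc, two_mul]
      exact mul_le_mul_right le_self_add _
    · push_cast
      rw [mul_assoc]
      exact mul_le_mul_right (besov_le_sobolev hσ.le hq.le g) _

end Vale.Agent.N076
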