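import Vale.Agent.N076.Pos
import Vale.Agent.N076.Defs
import Vale.Agent.P076.H18.Final

/-!
# P076: the norms, and general lemmas on maximal functions
-/

open MeasureTheory Complex FourierTransform Filter Topology Set
open scoped ENNReal NNReal

namespace Vale.Agent.N076

open Vale.Agent.P076 Vale.Agent.P076.H791

variable {n : ℕ} {g g' : (Fin n → ℝ) → ℂ} {σ q : ℝ}

lemma ofReal_sq (z : ℂ) : ENNReal.ofReal (‖z‖ ^ 2) = ‖z‖ₑ ^ 2 := by
  rw [ENNReal.ofReal_pow (norm_nonneg _), ofReal_norm]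

lemma measurable_nrm : Measurable (nrm (n := n)) := by
  unfold nrm
  fun_prop

lemma measurableSet_shell (j : ℕ) :
    MeasurableSet {ξ : Fin n → ℝ | 2 ^ j ≤ nrm ξ ∧ nrm ξ < 2 ^ (j + 1)} :=
  (measurableSet_le measurable_const measurable_nrm).inter
    (measurableSet_lt measurable_nrm measurable_const)

lemma besov_congr (h : g =ᵐ[volume] g') (σ q : ℝ) : besov g σ q = besov g' σ q := by
  have : ∀ S, part g S = part g' S := by
    intro S
    unfold part
    congr 2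
    refine lintegral_congr_ae (ae_restrict_of_ae ?_)
    filter_upwards [h] with ξ hξ
    rw [hξ]
  simp only [besov, this]

lemma part_freq (F : Lp ℂ 2 (volume : Measure (E n))) {S : Set (E n)} (hS : MeasurableSet S) :
    part (freq F) ((fun ξ => (2 * Real.pi)⁻¹ • toE ξ) ⁻¹' S) =
      (∫⁻ η in S, ‖(𝓕 F : Lp ℂ 2 (volume : Measure (E n))) η‖ₑ ^ 2) ^ (1 / 2 : ℝ) := by
  have hm : MeasurableSet ((fun ξ : Fin n → ℝ => (2 * Real.pi)⁻¹ • toE ξ) ⁻¹' S) :=
    (measurableEmbedding_scale (n := n)).measurable hS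
  have h1 := lintegral_scale (n := n)
    (S.indicator fun η => ‖(𝓕 F : Lp ℂ 2 (volume : Measure (E n))) η‖ₑ ^ 2)
  rw [lintegral_indicator hS] at h1
  have h2 : ∫⁻ ξ in (fun ξ => (2 * Real.pi)⁻¹ • toE ξ) ⁻¹' S, ENNReal.ofReal (‖freq F ξ‖ ^ 2) =
      ENNReal.ofReal ((2 * Real.pi) ^ n) *
        ∫⁻ η in S, ‖(𝓕 F : Lp ℂ 2 (volume : Measure (E n))) η‖ₑ ^ 2 := by
    rw [← h1, ← lintegral_indicator hm]
    refine lintegral_congr fun ξ => ?_
    simp only [indicator, mem_preimage, ofReal_sq]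
    rfl
  rw [part, h2, ← mul_assoc, ← ENNReal.ofReal_mul (by positivity),
    inv_mul_cancel₀ (by positivity), ENNReal.ofReal_one, one_mul]

lemma besov_freq (F : Lp ℂ 2 (volume : Measure (E n))) (σ q : ℝ) :
    besov (freq F) σ q = NB σ q fun η => (𝓕 F : Lp ℂ 2 (volume : Measure (E n))) η := by
  have h1 := part_freq F MeasurableSet.univ
  rw [preimage_univ, Measure.restrict_univ] at h1
  have h2 : ∀ j : ℕ, {ξ : Fin n → ℝ | 2 ^ j ≤ nrm ξ ∧ nrm ξ < 2 ^ (j + 1)} =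
      (fun ξ => (2 * Real.pi)⁻¹ • toE ξ) ⁻¹' Sh n j := by
    intro j
    ext ξ
    have e : 2 * Real.pi * ‖(2 * Real.pi)⁻¹ • toE ξ‖ = nrm ξ := by
      rw [norm_smul, Real.norm_of_nonneg (by positivity), nrm_eq,
        mul_inv_cancel_left₀ (by positivity)]
    simp only [mem_ofPred_eq, mem_preimage, Sh, e]
  simp only [besov, NB, aB, h1, h2, part_freq F (measurableSet_Sh _)]

lemma besov_le_sobolev (hσ : 0 ≤ σ) (hq : 2 ≤ q) (g : (Fin n → ℝ) → ℂ) :
    besov g σ q ≤ 2 * sobolev g σ := by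
  set c : ℝ≥0∞ := ENNReal.ofReal ((2 * Real.pi) ^ n)⁻¹ with hc
  set W : (Fin n → ℝ) → ℝ≥0∞ := fun ξ => ENNReal.ofReal ((1 + nrm ξ ^ 2) ^ σ * ‖g ξ‖ ^ 2) with hW
  set S : ℝ≥0∞ := c * ∫⁻ ξ, W ξ with hS
  have hq0 : 0 < q := by linarith
  rw [two_mul]
  refine add_le_add ?_ ?_
  · unfold part sobolev
    rw [Measure.restrict_univ]
    gcongr with ξ
    exact le_mul_of_one_le_left (by positivity)
      (Real.one_le_rpow (by linarith [sq_nonneg (nrm ξ)]) hσ)
  set e : ℕ → ℝ≥0∞ := fun j => c * ∫⁻ ξ in {ξ | 2 ^ j ≤ nrm ξ ∧ nrm ξ < 2 ^ (j + 1)}, W ξ with he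
  have h1 : ∑' j, e j ≤ S := by
    rw [he, ENNReal.tsum_mul_left, ← lintegral_iUnion measurableSet_shell]
    · exact mul_le_mul_right (setLIntegral_le_lintegral _ _) _
    · refine (pairwise_disjoint_on _).2 fun i j hij => Set.disjoint_left.2 fun ξ h1 h2 => ?_
      have : (2 : ℝ) ^ (i + 1) ≤ 2 ^ j := pow_le_pow_right₀ one_le_two hij
      linarith [h1.2, h2.1]
  have h2 : ∀ j : ℕ, ENNReal.ofReal (2 ^ (j * σ)) *
      part g {ξ | 2 ^ j ≤ nrm ξ ∧ nrm ξ < 2 ^ (j + 1)} ≤ e j ^ (1 / 2 : ℝ) := by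
    intro j
    have e1 : ENNReal.ofReal (2 ^ (j * σ)) =
        ENNReal.ofReal ((((2 : ℝ) ^ j) ^ 2) ^ σ) ^ (1 / 2 : ℝ) := by
      rw [ENNReal.ofReal_rpow_of_nonneg (by positivity) (by norm_num), ← Real.rpow_natCast,
        ← Real.rpow_natCast, ← Real.rpow_mul (by positivity), ← Real.rpow_mul (by positivity),
        ← Real.rpow_mul (by positivity)]
      congr 2
      push_cast
      ring
    rw [e1, part, ← ENNReal.mul_rpow_of_nonneg _ _ (by norm_num), mul_left_comm,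
      ← lintegral_const_mul' _ _ ENNReal.ofReal_ne_top]
    refine ENNReal.rpow_le_rpow (mul_le_mul_right
      (setLIntegral_mono' (measurableSet_shell j) fun ξ hξ => ?_) _) (by norm_num)
    rw [← ENNReal.ofReal_mul (by positivity)]
    refine ENNReal.ofReal_le_ofReal (mul_le_mul_of_nonneg_right ?_ (by positivity))
    refine Real.rpow_le_rpow (by positivity) ?_ hσ
    have := pow_le_pow_left₀ (by positivity) hξ.1 2
    linarith
  have h3 : ∑' j : ℕ, (ENNReal.ofReal (2 ^ (j * σ)) *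
      part g {ξ | 2 ^ j ≤ nrm ξ ∧ nrm ξ < 2 ^ (j + 1)}) ^ q ≤ S ^ (q / 2) := by
    calc _ ≤ ∑' j, e j * S ^ (q / 2 - 1) := by
          refine ENNReal.tsum_le_tsum fun j => (ENNReal.rpow_le_rpow (h2 j) hq0.le).trans ?_
          rw [← ENNReal.rpow_mul, show 1 / 2 * q = 1 + (q / 2 - 1) by ring,
            ENNReal.rpow_add_of_nonneg _ _ zero_le_one (by linarith), ENNReal.rpow_one]
          exact mul_le_mul_right
            (ENNReal.rpow_le_rpow ((ENNReal.le_tsum j).trans h1) (by linarith)) _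
      _ ≤ S * S ^ (q / 2 - 1) := by
          rw [ENNReal.tsum_mul_right]
          exact mul_le_mul_left h1 _
      _ = S ^ (q / 2) := by
          conv_rhs => rw [show q / 2 = 1 + (q / 2 - 1) by ring,
            ENNReal.rpow_add_of_nonneg _ _ zero_le_one (by linarith), ENNReal.rpow_one]
  refine (ENNReal.rpow_le_rpow h3 (by positivity)).trans (le_of_eq ?_)
  rw [← ENNReal.rpow_mul, show q / 2 * (1 / q) = 1 / 2 by field_simp]
  rfl

lemma iSup_rat {v : ℝ → ℝ≥0∞} (hv : Continuous v) (a b : ℝ) :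
    ⨆ t ∈ Ioo a b, v t = ⨆ t : ℚ, ⨆ (_ : (t : ℝ) ∈ Ioo a b), v t := by
  refine le_antisymm (iSup₂_le fun t ht => le_of_forall_lt fun c hc => ?_)
    (iSup₂_le fun t ht => le_iSup₂ (f := fun (t : ℝ) (_ : t ∈ Ioo a b) => v t) (t : ℝ) ht)
  have ho : IsOpen (Ioo a b ∩ {t | c < v t}) := isOpen_Ioo.inter (isOpen_lt continuous_const hv)
  obtain ⟨y, hy⟩ := (Rat.denseRange_cast (𝕜 := ℝ)).exists_mem_open ho ⟨t, ht, hc⟩
  exact lt_of_lt_of_le hy.2
    (le_iSup₂ (f := fun (t : ℚ) (_ : (t : ℝ) ∈ Ioo a b) => v t) y hy.1)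

/-- weak type on a finite measure space gives strong type below the exponent -/
lemma strong_of_weak {X : Type*} [MeasurableSpace X] {μ : Measure X} {m p p₀ : ℝ} (hm : 0 < m)
    (hμ : μ univ ≤ ENNReal.ofReal m) (hp : 0 < p) (hpp : p < p₀) : ∃ K : ℝ, 0 < K ∧
    ∀ M : X → ℝ≥0∞, AEMeasurable M μ → ∀ B : ℝ, 0 < B →
      (∀ ε : ℝ, 0 < ε → μ {x | ENNReal.ofReal ε < M x} ≤ ENNReal.ofReal ((B / ε) ^ p₀)) →
      (∫⁻ x, M x ^ p ∂μ) ^ (1 / p) ≤ ENNReal.ofReal (K * B) := by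
  have hq : 1 < p₀ / p := by rwa [lt_div_iff₀ hp, one_mul]
  have hq' : 0 < p₀ / p - 1 := by linarith
  have hp0 : 0 < p₀ := hp.trans hpp
  set K₀ : ℝ := p₀ / p / (p₀ / p - 1) * m ^ (1 - 1 / (p₀ / p)) with hK₀
  have hK₀0 : 0 < K₀ := by positivity
  refine ⟨K₀ ^ (1 / p), by positivity, fun M hM B hB hw => ?_⟩
  have hfin : ∀ᵐ x ∂μ, M x ≠ ⊤ := by
    rw [ae_iff]
    have h1 : Tendsto (fun ε : ℝ => ENNReal.ofReal ((B / ε) ^ p₀)) atTop (𝓝 0) := by
      have h2 := (tendsto_const_nhds (x := B)).div_atTop (tendsto_id (α := ℝ) (x := atTop))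
      have h3 := ENNReal.tendsto_ofReal (h2.rpow_const (p := p₀) (Or.inr hp0.le))
      rwa [Real.zero_rpow hp0.ne', ENNReal.ofReal_zero] at h3
    refine le_antisymm (ge_of_tendsto h1 ?_) zero_le
    filter_upwards [eventually_gt_atTop 0] with ε hε
    refine le_trans (measure_mono fun x hx => ?_) (hw ε hε)
    have : M x = ⊤ := not_not.1 hx
    rw [mem_ofPred_eq, this]
    exact ENNReal.ofReal_lt_top
  have h1 := H618.layer (μ := μ) (f := fun x => (hM.mk M x).toReal ^ p)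
    (hM.measurable_mk.ennreal_toReal.pow_const p) (fun x => by positivity) hq hm
    (Real.rpow_pos_of_pos hB p) hμ (fun t ht => by
      have h2 := hw (t ^ (1 / p)) (by positivity)
      refine le_trans (measure_mono_ae ?_) (h2.trans (le_of_eq ?_))
      · filter_upwards [hfin, hM.ae_eq_mk] with x hx hx' h3
        have h4 : t < (hM.mk M x).toReal ^ p := h3
        rw [← hx'] at h4
        change ENNReal.ofReal (t ^ (1 / p)) < M x
        rw [ENNReal.ofReal_lt_iff_lt_toReal (by positivity) hx, one_div,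
          Real.rpow_inv_lt_iff_of_pos ht.le ENNReal.toReal_nonneg hp]
        exact h4
      · congr 1
        rw [Real.div_rpow hB.le (by positivity), Real.div_rpow (by positivity) ht.le,
          ← Real.rpow_mul hB.le, ← Real.rpow_mul ht.le]
        congr 2 <;> field_simp)
  have h2 : ∫⁻ x, M x ^ p ∂μ = ∫⁻ x, ENNReal.ofReal ((hM.mk M x).toReal ^ p) ∂μ := by
    refine lintegral_congr_ae ?_
    filter_upwards [hfin, hM.ae_eq_mk] with x hx hx'
    rw [← hx', ← ENNReal.ofReal_rpow_of_nonneg ENNReal.toReal_nonneg hp.le,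
      ENNReal.ofReal_toReal hx]
  rw [h2]
  refine (ENNReal.rpow_le_rpow h1 (by positivity)).trans (le_of_eq ?_)
  rw [ENNReal.ofReal_rpow_of_nonneg (by positivity) (by positivity)]
  congr 1
  have e : p₀ / p / (p₀ / p - 1) * B ^ p * m ^ (1 - 1 / (p₀ / p)) = K₀ * B ^ p := by
    rw [hK₀]
    ring
  rw [e, Real.mul_rpow hK₀0.le (by positivity), ← Real.rpow_mul hB.le, mul_one_div_cancel hp.ne',
    Real.rpow_one]

/-- divergence in the Besov spaces with `q > 2 + 2 / n` -/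
theorem besov_fails (hn : 1 ≤ n) : ∃ f g : (Fin n → ℝ) → ℂ, IsFourierPair f g ∧
    (∀ q : ℝ, 2 + 2 / (n : ℝ) < q → besov g (critExp n) q < ⊤) ∧
      ∀ x, ¬ ConvAt f g x ∧ ∀ r : ℝ, 0 < r → maxFn g r x = ⊤ := by
  obtain ⟨F, u, z, h1, -, -, -, h2, h3⟩ := besov0 hn (unifiedConclusion0 hn)
  have hp := isFourierPair F
  have hI : Integrable fun ξ => ‖freq F ξ‖ ^ 2 := hp.2.1.integrable_norm_pow (by norm_num)
  have hpart : ∀ S, part (freq F) S =
      ENNReal.ofReal √(((2 * Real.pi) ^ n)⁻¹ * ∫ ξ in S, ‖freq F ξ‖ ^ 2) := by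
    intro S
    have h0 : 0 ≤ ∫ ξ in S, ‖freq F ξ‖ ^ 2 := integral_nonneg fun ξ => by positivity
    rw [part, ← ofReal_integral_eq_lintegral_ofReal hI.integrableOn
      (Eventually.of_forall fun ξ => by positivity), ← ENNReal.ofReal_mul (by positivity),
      ENNReal.ofReal_rpow_of_nonneg (by positivity) (by norm_num), Real.sqrt_eq_rpow]
  refine ⟨phys F, freq F, hp, fun q hq => ?_, fun x => ⟨?_, fun r hr => ?_⟩⟩
  · have hq0 : 0 < q := lt_trans (by positivity) hq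
    refine ENNReal.add_lt_top.2 ⟨by rw [hpart]; exact ENNReal.ofReal_lt_top,
      ENNReal.rpow_lt_top_of_nonneg (by positivity) ?_⟩
    refine ne_of_eq_of_ne (tsum_congr fun j => ?_) (h1 q hq).tsum_ofReal_ne_top
    rw [hpart, ← ENNReal.ofReal_mul (by positivity),
      ENNReal.ofReal_rpow_of_nonneg (by positivity) hq0.le, ← shellL2_freq]
    rfl
  · rintro ⟨v, a, b⟩
    have h4 : ∀ᶠ t in 𝓝[>] (0 : ℝ), ‖v t‖ < ‖phys F x‖ + 1 :=
      b.norm.eventually (gt_mem_nhds (by linarith))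
    obtain ⟨t, d, ⟨e, g⟩, k⟩ :=
      ((h3 (toE x) (‖phys F x‖ + 1)).and_eventually ((a.and h4).and self_mem_nhdsWithin)).exists
    simp only [Value, evolve_freq] at e
    rw [tendsto_nhds_unique e (h2 t k (toE x))] at g
    linarith
  · refine ENNReal.eq_top_of_forall_nnreal_le fun M => ?_
    obtain ⟨t, d, e⟩ := ((h3 (toE x) M).and_eventually (Ioo_mem_nhdsGT hr)).exists
    have h4 : Tendsto (fun a => evolve (freq F) t a x) (𝓝[>] 0) (𝓝 (u t (toE x))) := by
      simpa only [evolve_freq] using h2 t e.1 (toE x)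
    refine le_trans ?_ (le_iSup₂ (f := fun (t : ℝ) (_ : t ∈ Ioo (-r) r) =>
      limsup (fun a => ENNReal.ofReal ‖evolve (freq F) t a x‖) (𝓝[>] 0)) t
      ⟨by linarith [e.1], e.2⟩)
    rw [(ENNReal.tendsto_ofReal h4.norm).limsup_eq, ← ENNReal.ofReal_coe_nnreal]
    exact ENNReal.ofReal_le_ofReal d.le

end Vale.Agent.N076
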