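import Vale.Agent.N076.Top

/-!
# P076: Carleson's problem at the endpoint, the endpoint maximal estimate, and beyond the endpoint

(1) is the question as posed, in every dimension `n ≥ 2`.  (2): for some `q > 2`, convergence holds
in the larger Besov space `B^{s_n}_{2,q}`, and the maximal function is bounded from this space (and
from `H^{s_n}`) to `L^p` of every ball, `p ≤ q`.  (3): both fail for `q > 2 + 2/n`.
-/

open MeasureTheory
open scoped ENNReal NNReal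
open Vale.Agent.P076 Vale.Agent.N076

theorem Vale.Agent.N076.old_maximal (n : ℕ) (hn : 2 ≤ n) :
    -- (1) Q1
    (∀ f g : (Fin n → ℝ) → ℂ, IsFourierPair f g → sobolev g (critExp n) < ⊤ →
      ∀ᵐ x, ConvAt f g x) ∧
    -- (2) a larger space, and the maximal estimate
    (∃ q : ℝ, 2 < q ∧
      (∀ f g : (Fin n → ℝ) → ℂ, IsFourierPair f g →
        besov g (critExp n) q ≤ 2 * sobolev g (critExp n)) ∧
      (∀ f g : (Fin n → ℝ) → ℂ, IsFourierPair f g → besov g (critExp n) q < ⊤ →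
        (∀ᵐ x, ConvAt f g x) ∧
        (∀ᵐ x, ∃ u : ℝ → ℂ, Continuous u ∧ u 0 = f x ∧ ∀ t, Value g t x (u t)) ∧
        ∀ r : ℝ, AEMeasurable (maxFn g r)) ∧
      ∀ p r : ℝ, 0 < p → p ≤ q → ∃ C : ℝ≥0, ∀ f g : (Fin n → ℝ) → ℂ, IsFourierPair f g →
        (∫⁻ x in {x | nrm x < r}, maxFn g r x ^ p) ^ (1 / p) ≤ C * besov g (critExp n) q ∧
        (∫⁻ x in {x | nrm x < r}, maxFn g r x ^ p) ^ (1 / p) ≤ C * sobolev g (critExp n)) ∧
    -- (3) failure for `q > 2 + 2/n`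
    ∃ f g : (Fin n → ℝ) → ℂ, IsFourierPair f g ∧
      (∀ q : ℝ, 2 + 2 / (n : ℝ) < q → besov g (critExp n) q < ⊤) ∧
      ∀ x, ¬ ConvAt f g x ∧ ∀ r : ℝ, 0 < r → maxFn g r x = ⊤ :=
  ⟨q1 hn, main_of_SLat (critExp_pos hn) (slat_all hn), besov_fails (by omega)⟩
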