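import Vale.Agent.N076.Weak

/-!
# P076: from the weak type estimate to the values at all times
-/

open MeasureTheory Complex FourierTransform Filter Topology Set
open scoped ENNReal NNReal

namespace Vale.Agent.N076

open Vale.Agent.P076 Vale.Agent.P076.H791

variable {n : ℕ} {G H : E n → ℂ} {σ q : ℝ}

lemma En_one_lt_top (hG : MemLp G 2 volume) : En (fun _ => 1) G < ⊤ := by
  have h1 : En (fun _ => 1) G = eLpNorm G 2 volume ^ 2 := by
    rw [sq_eLpNorm]
    simp only [En, one_mul]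
  rw [h1]
  exact ENNReal.pow_lt_top hG.2

theorem pos_gen {N : (E n → ℂ) → ℝ≥0∞}
    (hmono : ∀ G H : E n → ℂ, (∀ η, ‖G η‖ ≤ ‖H η‖) → N G ≤ N H)
    (h : ∀ r : ℕ, ∀ ε : ℝ, 0 < ε → ∃ η : ℝ≥0∞, 0 < η ∧ ∀ G : E n → ℂ, Measurable G → Integrable G →
      N G ≤ η → volume (mset G (Ioo (-(r : ℝ)) r) ε ∩ Metric.ball 0 r) ≤ ENNReal.ofReal ε)
    (F : Lp ℂ 2 (volume : Measure (E n))) {G : E n → ℂ}
    (hG : G = fun η => (𝓕 F : Lp ℂ 2 (volume : Measure (E n))) η)
    (hcut : Tendsto (fun m => N (G - cut G m)) atTop (𝓝 0)) :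
    ∃ φ : ℕ → ℕ, ∀ᵐ x, ∃ u : ℝ → ℂ, Continuous u ∧ u 0 = F x ∧
      (∀ s, Tendsto (fun a => evo G x s a) (𝓝[>] 0) (𝓝 (u s))) ∧
      ∀ s, Tendsto (fun m => evo (cut G (φ m)) x s 0) atTop (𝓝 (u s)) := by
  set w : E n → ℝ≥0∞ := fun _ => 1 with hw'
  have hw : Measurable w := measurable_const
  have hw1 : ∀ η, 1 ≤ w η := fun _ => le_rfl
  have hGm : Measurable G := hG ▸ (Lp.stronglyMeasurable _).measurable
  have hE : En w G < ⊤ := En_one_lt_top (hG ▸ Lp.memLp _)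
  choose ηf hη0 hη using fun j : ℕ => h (j + 1) ((2 : ℝ)⁻¹ ^ j) (by positivity)
  obtain ⟨φ, hφ, hp⟩ := extraction_forall_of_eventually
    (P := fun j m => N (G - cut G m) ≤ ηf j ∧ En w (G - cut G m) ≤ H791.th j ^ 2 * H791.th j) (fun j => by
      have h0 := th_pos j
      exact (ENNReal.tendsto_nhds_zero.1 hcut _ (hη0 j)).and
        (ENNReal.tendsto_nhds_zero.1 (tendsto_cut hw hGm hE) _ (by positivity)))
  refine ⟨φ, ?_⟩
  set D : ℕ → E n → ℂ := fun j => cut G (φ (j + 1)) - cut G (φ j) with hD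
  have hDn : ∀ j, Nice w (D j) := fun j => (nice_cut hGm hE _).sub hw (nice_cut hGm hE _)
  have hDE1 : ∀ j, N (D j) ≤ ηf j := fun j =>
    (hmono _ _ (norm_cut_sub_le (hφ (Nat.lt_succ_self j)).le)).trans (hp j).1
  have hDE2 : ∀ j, En w (D j) ≤ H791.th j ^ 2 * H791.th j := fun j =>
    (En_mono (norm_cut_sub_le (hφ (Nat.lt_succ_self j)).le)).trans (hp j).2
  set P : ℕ → E n → ℂ := fun i => Nat.rec (cut G (φ 0)) (fun j _ => D j) i with hP
  have hP0 : P 0 = cut G (φ 0) := rfl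
  have hPs : ∀ j, P (j + 1) = D j := fun j => rfl
  have hPn : ∀ i, Nice w (P i) := fun i => by
    cases i with
    | zero => exact nice_cut hGm hE _
    | succ j => exact hDn j
  have hPsum : ∀ m η, ∑ i ∈ Finset.range (m + 1), P i η = cut G (φ m) η := by
    intro m η
    induction m with
    | zero => simp [hP0]
    | succ m ih =>
      rw [Finset.sum_range_succ, ih, hPs]
      simp only [hD, Pi.sub_apply]
      ring
  set δ : ℕ → ℝ := fun i => Nat.rec (√(∫ η, ‖cut G (φ 0) η‖ ^ 2) + 1) (fun j _ => (2 : ℝ)⁻¹ ^ j) i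
    with hδ
  have hδs : ∀ j, δ (j + 1) = (2 : ℝ)⁻¹ ^ j := fun j => rfl
  have hPieces : Pieces P δ := by
    refine ⟨fun i => (hPn i).integrable, fun i => (hPn i).memLp, fun i => ?_, fun i => ?_, ?_⟩
    · cases i with
      | zero =>
        have h1 : 0 ≤ ∫ η, ‖cut G (φ 0) η‖ ^ 2 := integral_nonneg fun η => by positivity
        have h2 := Real.sq_sqrt h1
        have h3 := Real.sqrt_nonneg (∫ η, ‖cut G (φ 0) η‖ ^ 2)
        change ∫ η, ‖cut G (φ 0) η‖ ^ 2 ≤ (√(∫ η, ‖cut G (φ 0) η‖ ^ 2) + 1) ^ 2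
        nlinarith
      | succ j => exact integral_sq_le_of_En hw1 (hDn j) (hDE2 j)
    · cases i with
      | zero =>
        change 0 < √(∫ η, ‖cut G (φ 0) η‖ ^ 2) + 1
        positivity
      | succ j =>
        rw [hδs]
        positivity
    · rw [← summable_nat_add_iff 1]
      exact summable_geo
  obtain ⟨f, hf1, hf2⟩ := exists_f hPieces
  have hGf : ∀ᵐ η, (𝓕 f : Lp ℂ 2 (volume : Measure (E n))) η = G η := by
    filter_upwards [hf1] with η hη'
    have h1 := (tendsto_add_atTop_iff_nat 1).2 hη'.tendsto_sum_nat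
    simp_rw [hPsum] at h1
    refine tendsto_nhds_unique h1 (tendsto_const_nhds.congr' ?_)
    obtain ⟨m₀, hm₀⟩ := exists_nat_ge (max ‖η‖ ‖G η‖)
    filter_upwards [eventually_ge_atTop m₀] with m hm
    have h3 : (m₀ : ℝ) ≤ φ m := by exact_mod_cast hm.trans (hφ.id_le m)
    have h2 : η ∈ {η | ‖η‖ ≤ φ m ∧ ‖G η‖ ≤ φ m} :=
      ⟨((le_max_left _ _).trans hm₀).trans h3, ((le_max_right _ _).trans hm₀).trans h3⟩
    simp only [cut]
    rw [indicator_of_mem h2]
  have hfF : f = F := by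
    have h1 : (𝓕 f : Lp ℂ 2 (volume : Measure (E n))) = 𝓕 F := Lp.ext (by rw [hG] at hGf; exact hGf)
    exact (Lp.fourierTransformₗᵢ (E n) ℂ).injective h1
  subst hfF
  have hE1 : ∑' j : ℕ, volume (mset (D j) (Ioo (-((j + 1 : ℕ) : ℝ)) ((j + 1 : ℕ) : ℝ)) ((2 : ℝ)⁻¹ ^ j)
      ∩ Metric.ball 0 ((j + 1 : ℕ) : ℝ)) ≠ ⊤ :=
    ne_top_of_le_ne_top tsum_th (ENNReal.tsum_le_tsum fun j => hη j (D j) (hDn j).meas
      (hDn j).integrable (hDE1 j))
  have hE2 : ∑' j : ℕ, volume {x | H791.th j ^ 2 ≤ qf (D j) x} ≠ ⊤ := by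
    refine ne_top_of_le_ne_top ?_ (ENNReal.tsum_le_tsum fun j => volume_qf_ge hw1 (hDn j) j (hDE2 j))
    rw [ENNReal.tsum_mul_left]
    exact ENNReal.mul_ne_top tw_ne_top tsum_th
  filter_upwards [ae_eventually_notMem hE1, ae_eventually_notMem hE2, hf2] with x hx1 hx2 hx3
  obtain ⟨J₁, hJ₁⟩ := eventually_atTop.1 (hx1.and hx2)
  obtain ⟨J₂, hJ₂⟩ := exists_nat_gt ‖x‖
  set J : ℕ := max J₁ J₂ with hJ
  have hb1 : ∀ j, J ≤ j → ∀ σ : ℝ, |σ| < j + 1 → ‖evo (D j) x σ 0‖ ≤ (2 : ℝ)⁻¹ ^ j := by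
    intro j hj σ hσ
    by_contra hcon
    refine (hJ₁ j ((le_max_left _ _).trans hj)).1 ⟨⟨σ, ?_, not_le.1 hcon⟩, ?_⟩
    · have h1 := abs_lt.1 hσ
      push_cast
      exact ⟨h1.1, h1.2⟩
    · rw [mem_ball_zero_iff]
      have h2 : J₂ ≤ j := (le_max_right _ _).trans hj
      have h3 : (J₂ : ℝ) ≤ j := by exact_mod_cast h2
      push_cast
      linarith
  have hb2 : ∀ j, J ≤ j → ∫ σ : ℝ, (1 + σ ^ 2)⁻¹ * ‖evo (D j) x σ 0‖ ^ 2 ≤ ((2 : ℝ)⁻¹ ^ j) ^ 2 :=
    fun j hj => integral_sq_le (hDn j).integrable x (hJ₁ j ((le_max_left _ _).trans hj)).2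
  set B : ℕ → ℕ → ℝ := fun R i => if J + R + 1 ≤ i then (1 + 4 * (1 + (R : ℝ) ^ 2)) * δ i
    else ∫ η, ‖P i η‖ with hB
  have hBs : ∀ R, Summable (B R) := by
    intro R
    have hev : ∀ᶠ i in atTop, (1 + 4 * (1 + (R : ℝ) ^ 2)) * δ i = B R i := by
      filter_upwards [eventually_ge_atTop (J + R + 1)] with i hi
      simp only [hB]
      rw [if_pos hi]
    exact (summable_congr_atTop hev).1 (hPieces.summable.mul_left _)
  have hle : ∀ R : ℕ, ∀ i, ∀ s : ℝ, |s| ≤ R → ∀ a : ℝ, 0 ≤ a → a ≤ 1 →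
      ‖evo (P i) x s a‖ ≤ B R i := by
    intro R i s hs a ha ha1
    simp only [hB]
    split_ifs with hi
    · obtain ⟨j, rfl⟩ : ∃ j, i = j + 1 := ⟨i - 1, by omega⟩
      have hj : J ≤ j := by omega
      have hRj : (R : ℝ) ≤ j := by exact_mod_cast (by omega : R ≤ j)
      rw [hPs, hδs]
      have hd : (0 : ℝ) < (2 : ℝ)⁻¹ ^ j := by positivity
      rcases ha.eq_or_lt with rfl | ha0
      · refine (hb1 j hj s (by linarith)).trans ?_
        refine le_mul_of_one_le_left hd.le ?_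
        have : 0 ≤ (R : ℝ) ^ 2 := by positivity
        linarith
      · refine (avg_bound (hDn j).integrable x s ha0 ha1 hd (fun σ hσ => hb1 j hj σ (by linarith))
          (hb2 j hj)).trans ?_
        have h5 : s ^ 2 ≤ (R : ℝ) ^ 2 := by
          rw [← sq_abs]
          exact pow_le_pow_left₀ (abs_nonneg _) hs 2
        gcongr
    · exact norm_evo_le (hPn i).integrable x s ha
  refine ⟨fun s => ∑' i, evo (P i) x s 0, ?_, hx3.tsum_eq, fun s => ?_, fun s => ?_⟩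
  · refine continuous_iff_continuousAt.2 fun s => ?_
    obtain ⟨R, hR⟩ := exists_nat_gt |s|
    have h1 : ContinuousOn (fun s => ∑' i, evo (P i) x s 0) (Ioo (-(R : ℝ)) R) := by
      refine continuousOn_tsum (fun i => (continuous_evo_s (hPn i).integrable x).continuousOn)
        (hBs R) fun i s hs => hle R i s ?_ 0 le_rfl zero_le_one
      exact abs_le.2 ⟨hs.1.le, hs.2.le⟩
    exact h1.continuousAt (Ioo_mem_nhds (abs_lt.1 hR).1 (abs_lt.1 hR).2)
  · obtain ⟨R, hR⟩ := exists_nat_gt |s|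
    have h1 : Tendsto (fun a => ∑' i, evo (P i) x s a) (𝓝[>] 0) (𝓝 (∑' i, evo (P i) x s 0)) := by
      refine tendsto_tsum_of_dominated_convergence (hBs R)
        (fun i => tendsto_evo (hPn i).integrable x s) ?_
      have h2 : Ioo (0 : ℝ) 1 ∈ 𝓝[>] (0 : ℝ) := Ioo_mem_nhdsGT zero_lt_one
      filter_upwards [h2] with a ha i
      exact hle R i s hR.le a ha.1.le ha.2.le
    refine h1.congr' ?_
    filter_upwards [self_mem_nhdsWithin] with a ha
    rw [hG]
    exact (evo_hasSum hPieces hf1 x s ha).tsum_eq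
  · obtain ⟨R, hR⟩ := exists_nat_gt |s|
    have h1 : Summable fun i => evo (P i) x s 0 :=
      Summable.of_norm_bounded (hBs R) fun i => hle R i s hR.le 0 le_rfl zero_le_one
    refine ((tendsto_add_atTop_iff_nat 1).2 h1.hasSum.tendsto_sum_nat).congr fun m => ?_
    simp only [evo_eq]
    rw [← integral_finsetSum _ fun i _ => integrable_ph_mul (hPn i).integrable x s le_rfl]
    refine integral_congr_ae (Eventually.of_forall fun η => ?_)
    simp only
    rw [← Finset.mul_sum, hPsum]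


lemma enorm_le_of (h : ∀ η, ‖G η‖ ≤ ‖H η‖) (η : E n) : ‖G η‖ₑ ≤ ‖H η‖ₑ := by
  rw [← ofReal_norm, ← ofReal_norm]
  exact ENNReal.ofReal_le_ofReal (h η)

lemma aB_mono (h : ∀ η, ‖G η‖ ≤ ‖H η‖) (σ : ℝ) (j : ℕ) : aB σ G j ≤ aB σ H j := by
  unfold aB
  gcongr with η
  exact enorm_le_of h η

lemma NB_mono (hq : 0 < q) (h : ∀ η, ‖G η‖ ≤ ‖H η‖) : NB σ q G ≤ NB σ q H := by
  unfold NB
  gcongr with η j
  · exact enorm_le_of h η
  · exact aB_mono h σ j

lemma norm_cut_le (G : E n → ℂ) (m : ℕ) (η : E n) : ‖cut G m η‖ ≤ ‖G η‖ :=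
  norm_indicator_le_norm_self _ _

lemma norm_sub_cut_le (G : E n → ℂ) (m : ℕ) (η : E n) : ‖(G - cut G m) η‖ ≤ ‖G η‖ := by
  simp only [Pi.sub_apply, cut]
  by_cases h : η ∈ {η | ‖η‖ ≤ m ∧ ‖G η‖ ≤ m}
  · rw [indicator_of_mem h, sub_self, norm_zero]
    exact norm_nonneg _
  · rw [indicator_of_notMem h, sub_zero]

lemma tendsto_rpow_zero {f : ℕ → ℝ≥0∞} (hf : Tendsto f atTop (𝓝 0)) {p : ℝ} (hp : 0 < p) :
    Tendsto (fun m => f m ^ p) atTop (𝓝 0) := by
  have := (ENNReal.continuous_rpow_const (y := p)).tendsto 0 |>.comp hf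
  rwa [ENNReal.zero_rpow_of_pos hp] at this

lemma NB_cut (hq : 0 < q) (hGm : Measurable G) (hG : NB σ q G < ⊤) :
    Tendsto (fun m => NB σ q (G - cut G m)) atTop (𝓝 0) := by
  obtain ⟨h1, h2⟩ := ENNReal.add_lt_top.1 hG
  have h3 : En (fun _ => 1) G < ⊤ := by
    simp only [En, one_mul]
    exact (ENNReal.rpow_lt_top_iff_of_pos (by norm_num)).1 h1
  have h4 := tendsto_cut measurable_const hGm h3
  simp only [En, one_mul] at h4
  have h5 : ∑' j, aB σ G j ^ q < ⊤ := (ENNReal.rpow_lt_top_iff_of_pos (by positivity)).1 h2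
  have h6 : ∀ j, Tendsto (fun m => aB σ (G - cut G m) j ^ q) atTop (𝓝 0) := by
    intro j
    refine tendsto_rpow_zero ?_ hq
    have h7 : Tendsto (fun m => ∫⁻ η in Sh n j, ‖(G - cut G m) η‖ₑ ^ 2) atTop (𝓝 0) :=
      tendsto_of_tendsto_of_tendsto_of_le_of_le tendsto_const_nhds h4 (fun _ => zero_le)
        fun m => setLIntegral_le_lintegral _ _
    have h8 := ENNReal.Tendsto.const_mul (a := ENNReal.ofReal (2 ^ (j * σ)))
      (tendsto_rpow_zero h7 (p := 1 / 2) (by norm_num)) (Or.inr ENNReal.ofReal_ne_top)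
    rwa [mul_zero] at h8
  have h7 : Tendsto (fun m => ∑' j, aB σ (G - cut G m) j ^ q) atTop (𝓝 0) := by
    have := tendsto_lintegral_of_dominated_convergence (μ := Measure.count)
      (F := fun m j => aB σ (G - cut G m) j ^ q) (f := fun _ => 0) (fun j => aB σ G j ^ q)
      (fun m => measurable_from_top) (fun m => Eventually.of_forall fun j =>
        ENNReal.rpow_le_rpow (aB_mono (norm_sub_cut_le G m) σ j) hq.le)
      (by rw [lintegral_count]; exact h5.ne) (Eventually.of_forall h6)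
    simpa only [lintegral_count, tsum_zero] using this
  have h8 := (tendsto_rpow_zero h4 (p := 1 / 2) (by norm_num)).add
    (tendsto_rpow_zero h7 (p := 1 / q) (by positivity))
  rw [add_zero] at h8
  exact h8

end Vale.Agent.N076
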