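import Vale.Agent.P076.H618.Conv

/-!
# P076: summation over the scales with an exponent `θ ≤ 1`
-/

open MeasureTheory Complex FourierTransform Filter Topology Set
open scoped ENNReal NNReal

namespace Vale.Agent.N076

open Vale.Agent.P076 Vale.Agent.P076.H791 Vale.Agent.P076.R2.H45 Vale.Agent.P076.H263
  Vale.Agent.P076.H618

lemma rpow_sum_le {ι : Type*} (T : Finset ι) (f : ι → ℝ) (hf : ∀ i ∈ T, 0 ≤ f i) {θ : ℝ}
    (h0 : 0 < θ) (h1 : θ ≤ 1) : (∑ i ∈ T, f i) ^ θ ≤ ∑ i ∈ T, f i ^ θ := by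
  classical
  induction T using Finset.induction_on with
  | empty => simp [Real.zero_rpow h0.ne']
  | insert a T ha ih =>
    rw [Finset.sum_insert ha, Finset.sum_insert ha]
    have h2 : ∀ i ∈ T, 0 ≤ f i := fun i hi => hf i (Finset.mem_insert_of_mem hi)
    refine (Real.rpow_add_le_add_rpow (hf a (Finset.mem_insert_self _ _))
      (Finset.sum_nonneg h2) h0.le h1).trans ?_
    gcongr
    exact ih h2

lemma erpow_sum_le {ι : Type*} (T : Finset ι) (f : ι → ℝ≥0∞) {θ : ℝ}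
    (h0 : 0 < θ) (h1 : θ ≤ 1) : (∑ i ∈ T, f i) ^ θ ≤ ∑ i ∈ T, f i ^ θ := by
  classical
  induction T using Finset.induction_on with
  | empty => simp [ENNReal.zero_rpow_of_pos h0]
  | insert a T ha ih =>
    rw [Finset.sum_insert ha, Finset.sum_insert ha]
    refine (ENNReal.rpow_add_le_add_rpow _ _ h0.le h1).trans ?_
    gcongr

lemma min_le_geo {x y l : ℝ} (hx : 0 ≤ x) (hy : 0 ≤ y) (h0 : 0 ≤ l) (h1 : l ≤ 1) :
    min x y ≤ x ^ (1 - l) * y ^ l := by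
  have hm : 0 ≤ min x y := le_min hx hy
  calc min x y = min x y ^ (1 - l) * min x y ^ l := by
        rw [← Real.rpow_add' hm (by norm_num)]
        simp
    _ ≤ _ := mul_le_mul (Real.rpow_le_rpow hm (min_le_left _ _) (by linarith))
        (Real.rpow_le_rpow hm (min_le_right _ _) h0) (by positivity) (by positivity)

section real

variable {m : ℕ → ℕ → ℝ}

/-- the chain part of the energy of the scale `k` -/
noncomputable def Tk (m : ℕ → ℕ → ℝ) (c δ : ℝ) (k : ℕ) : ℝ :=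
  ∑ l ∈ Finset.range (2 ^ k), ∑ j ∈ Finset.range k,
    2 ^ (-c * (j : ℝ)) * H263.lt m (k + j) (hv m j k l) ^ (1 + δ)

lemma lt_nonneg (hm : ∀ k l, 0 ≤ m k l) (k l : ℕ) : 0 ≤ H263.lt m k l := le_min (hm _ _) (hm _ _)

lemma Tk_nonneg (hm : ∀ k l, 0 ≤ m k l) (c δ : ℝ) (k : ℕ) : 0 ≤ Tk m c δ k :=
  Finset.sum_nonneg fun _ _ => Finset.sum_nonneg fun _ _ =>
    mul_nonneg (by positivity) (Real.rpow_nonneg (lt_nonneg hm _ _) _)

lemma Tk_sum (hm : ∀ k l, 0 ≤ m k l)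
    (hadd : ∀ k l, m k l = m (k + 1) (2 * l) + m (k + 1) (2 * l + 1)) {c δ θ : ℝ} (hc : 0 < c)
    (h0 : 0 < θ) (h1 : θ ≤ 1) (hd : 1 < (1 + δ) * θ) (K : ℕ) :
    ∑ k ∈ Finset.range K, Tk m c δ k ^ θ ≤
      1 / (((1 + δ) * θ - 1) * (1 - 2 ^ (-(c * θ)))) * m 0 0 ^ ((1 + δ) * θ) := by
  have h2 := tree_sum_le hm hadd (c := c * θ) (d := (1 + δ) * θ - 1) (by linarith) (by positivity) K K
  rw [add_sub_cancel] at h2
  refine le_trans (Finset.sum_le_sum fun k hk => ?_) h2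
  have hn : ∀ l j : ℕ, 0 ≤ (2 : ℝ) ^ (-c * (j : ℝ)) * H263.lt m (k + j) (hv m j k l) ^ (1 + δ) :=
    fun l j => mul_nonneg (by positivity) (Real.rpow_nonneg (lt_nonneg hm _ _) _)
  refine (rpow_sum_le _ _ (fun l _ => Finset.sum_nonneg fun j _ => hn l j) h0 h1).trans
    (Finset.sum_le_sum fun l _ => ?_)
  refine (rpow_sum_le _ _ (fun j _ => hn l j) h0 h1).trans ?_
  refine le_trans (le_of_eq (Finset.sum_congr rfl fun j _ => ?_))
    (Finset.sum_le_sum_of_subset_of_nonneg (s := Finset.range k) ?_ fun j _ _ => ?_)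
  · rw [Real.mul_rpow (by positivity) (Real.rpow_nonneg (lt_nonneg hm _ _) _),
      ← Real.rpow_mul (by norm_num), ← Real.rpow_mul (lt_nonneg hm _ _)]
    congr 2
    ring
  · intro j hj
    rw [Finset.mem_range] at hj hk ⊢
    omega
  · exact mul_nonneg (by positivity) (Real.rpow_nonneg (lt_nonneg hm _ _) _)

/-- one scale -/
lemma one_scale (hm : ∀ k l, 0 ≤ m k l)
    (hadd : ∀ k l, m k l = m (k + 1) (2 * l) + m (k + 1) (2 * l + 1)) {δ c σ : ℝ} (hδ : 0 < δ)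
    (hc : 0 < c) (hcσ : c ≤ σ) (k : ℕ) :
    ∑ l ∈ Finset.range (2 ^ k), (2 ^ k : ℝ) ^ (-(2 * σ)) *
      ∑ j ∈ Finset.range (k + 1), (2 ^ c : ℝ) ^ j * ((2 ^ k : ℝ) ^ (2 * σ) *
        (2 ^ j : ℝ) ^ (-(2 * c)) * mu m k l k j ^ (1 + δ) + mu m k l k j) ≤
    Tk m c δ k + 2 ^ (-c * (k : ℝ)) * m 0 0 ^ (1 + δ) + 2 ^ (-c * (k : ℝ)) * m 0 0 := by
  have h2 : (0 : ℝ) < 2 := by norm_num
  have w1 : ∀ j : ℕ, (2 ^ c : ℝ) ^ j * (2 ^ j : ℝ) ^ (-(2 * c)) = 2 ^ (-c * (j : ℝ)) := by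
    intro j
    rw [← Real.rpow_natCast (2 ^ c : ℝ) j, ← Real.rpow_natCast (2 : ℝ) j, ← Real.rpow_mul h2.le,
      ← Real.rpow_mul h2.le, ← Real.rpow_add h2]
    congr 1
    ring
  have w2 : (2 ^ k : ℝ) ^ (-(2 * σ)) * (2 ^ c : ℝ) ^ k ≤ 2 ^ (-c * (k : ℝ)) := by
    rw [← Real.rpow_natCast (2 ^ c : ℝ) k, ← Real.rpow_natCast (2 : ℝ) k, ← Real.rpow_mul h2.le,
      ← Real.rpow_mul h2.le, ← Real.rpow_add h2]
    refine Real.rpow_le_rpow_of_exponent_le one_le_two ?_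
    have : (0 : ℝ) ≤ k := Nat.cast_nonneg k
    nlinarith
  have w3 : (2 ^ k : ℝ) ^ (-(2 * σ)) * (2 ^ k : ℝ) ^ (2 * σ) = 1 := by
    rw [← Real.rpow_add (by positivity), neg_add_cancel, Real.rpow_zero]
  have hmu := mu_nonneg hm
  have h1 : ∀ l : ℕ, (2 ^ k : ℝ) ^ (-(2 * σ)) *
      ∑ j ∈ Finset.range (k + 1), (2 ^ c : ℝ) ^ j * ((2 ^ k : ℝ) ^ (2 * σ) *
        (2 ^ j : ℝ) ^ (-(2 * c)) * mu m k l k j ^ (1 + δ) + mu m k l k j) ≤
      (∑ j ∈ Finset.range k, 2 ^ (-c * (j : ℝ)) * H263.lt m (k + j) (hv m j k l) ^ (1 + δ)) +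
        2 ^ (-c * (k : ℝ)) * m k l ^ (1 + δ) + 2 ^ (-c * (k : ℝ)) * m k l := by
    intro l
    have e1 : (2 ^ k : ℝ) ^ (-(2 * σ)) *
      ∑ j ∈ Finset.range (k + 1), (2 ^ c : ℝ) ^ j * ((2 ^ k : ℝ) ^ (2 * σ) *
        (2 ^ j : ℝ) ^ (-(2 * c)) * mu m k l k j ^ (1 + δ) + mu m k l k j) =
        (∑ j ∈ Finset.range (k + 1), 2 ^ (-c * (j : ℝ)) * mu m k l k j ^ (1 + δ)) +
        (2 ^ k : ℝ) ^ (-(2 * σ)) * ∑ j ∈ Finset.range (k + 1), (2 ^ c : ℝ) ^ j * mu m k l k j := by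
      rw [Finset.mul_sum, Finset.mul_sum, ← Finset.sum_add_distrib]
      refine Finset.sum_congr rfl fun j _ => ?_
      rw [← w1 j]
      linear_combination
        ((2 ^ c : ℝ) ^ j * (2 ^ j : ℝ) ^ (-(2 * c)) * mu m k l k j ^ (1 + δ)) * w3
    rw [e1]
    refine add_le_add ?_ ?_
    · rw [Finset.sum_range_succ]
      refine add_le_add (le_of_eq ?_) ?_
      · refine Finset.sum_congr rfl fun j hj => ?_
        rw [mu, if_pos (Finset.mem_range.1 hj)]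
      · refine mul_le_mul_of_nonneg_left ?_ (by positivity)
        exact Real.rpow_le_rpow (hmu _ _ _ _) (mu_le hm hadd k l k (Finset.self_mem_range_succ k))
          (by linarith)
    · refine le_trans ?_ (mul_le_mul_of_nonneg_right w2 (hm k l))
      rw [mul_assoc]
      refine mul_le_mul_of_nonneg_left ?_ (by positivity)
      rw [chain_mass hadd k l k, Finset.mul_sum]
      refine Finset.sum_le_sum fun j hj => mul_le_mul_of_nonneg_right ?_ (hmu _ _ _ _)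
      refine pow_le_pow_right₀ (Real.one_le_rpow (by norm_num) hc.le) ?_
      have := Finset.mem_range.1 hj
      omega
  refine (Finset.sum_le_sum fun l _ => h1 l).trans ?_
  rw [Finset.sum_add_distrib, Finset.sum_add_distrib, ← Finset.mul_sum, ← Finset.mul_sum,
    sum_level hadd]
  refine add_le_add (add_le_add le_rfl ?_) le_rfl
  exact mul_le_mul_of_nonneg_left (sum_level_rpow hm hadd hδ k) (by positivity)

end real

variable {n : ℕ} {V : ℕ → E n → ℝ} {A₀ C₀ : ℝ} {s : E n → ℝ} {h : E n → ℂ} {A : Set (E n)} {r : ℕ}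

/-- the volume of a cube -/
lemma vol_cube {R : ℝ} (hR : 0 ≤ R) :
    volume {η : E n | ∀ i, |η i| ≤ R} = ENNReal.ofReal ((2 * R) ^ n) := by
  rw [← measurePreserving_toE.measure_preimage (measurableSet_absCube R).nullMeasurableSet]
  have : toE ⁻¹' {η : E n | ∀ i, |η i| ≤ R} = Set.pi univ fun _ : Fin n => Icc (-R) R := by
    ext x
    simp only [mem_preimage, mem_ofPred_eq, toE_apply, Set.mem_pi, mem_univ, true_implies, mem_Icc,
      abs_le]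
  rw [this, volume_pi_pi]
  simp only [Real.volume_Icc, Finset.prod_const, Finset.card_univ, Fintype.card_fin]
  rw [ENNReal.ofReal_pow (by positivity)]
  congr 2
  ring

/-- the trivial bound -/
lemma QE_triv {W : E n → ℝ} {R : ℝ} (hR : 0 ≤ R) (h1 : ∀ η, W η ≤ 1)
    (hs : ∀ η, W η ≠ 0 → ∀ i, |η i| ≤ R) (a : Adm r A s h) :
    QE W s h A ≤ ENNReal.ofReal ((2 * R) ^ n * (volume A).toReal ^ 2) := by
  have h2 : QE W s h A ≤ ∫⁻ η, ({η : E n | ∀ i, |η i| ≤ R}).indicator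
      (fun _ => ENNReal.ofReal ((volume A).toReal ^ 2)) η := by
    refine lintegral_mono fun η => ?_
    by_cases hη : W η = 0
    · simp [hη]
    · rw [indicator_of_mem (show η ∈ {η : E n | ∀ i, |η i| ≤ R} from hs η hη),
        ENNReal.ofReal_pow ENNReal.toReal_nonneg]
      calc ENNReal.ofReal (W η) * ‖Phi A s h η‖ₑ ^ 2
          ≤ 1 * ENNReal.ofReal (volume A).toReal ^ 2 := by
            gcongr
            · exact ENNReal.ofReal_le_one.2 (h1 η)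
            · rw [← ofReal_norm]
              exact ENNReal.ofReal_le_ofReal (norm_Phi_le a η)
        _ = _ := one_mul _
  rw [lintegral_indicator_const (measurableSet_absCube R), vol_cube hR,
    ← ENNReal.ofReal_mul (by positivity), mul_comm] at h2
  exact h2

/-- the energy of one scale -/
theorem scale_le {σ δ : ℝ} (hδ : 0 < δ) (hσδ : n * δ < 2 * σ) (hK : KB V A₀ C₀) {C : ℝ≥0}
    (hcube : ∀ (k j : ℕ), j ≤ k → ∀ (r : ℕ) (A : Set (E n)) (s : E n → ℝ) (h : E n → ℂ),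
      Adm r A s h → ∀ τ₀ : ℝ, (∀ x ∈ A, τ₀ ≤ s x ∧ s x ≤ τ₀ + ((2 : ℝ) ^ (k + j))⁻¹) →
      QE (V k) s h A ≤ C * (ENNReal.ofReal ((2 ^ k : ℝ) ^ (2 * σ) * (2 ^ j : ℝ) ^ (-(2 * σ - n * δ))) *
        volume A ^ (1 + δ)) + C * volume A) (r : ℕ) :
    ∃ D : ℝ, 0 < D ∧ ∀ (A : Set (E n)) (s : E n → ℝ) (h : E n → ℂ), Adm r A s h →
      (∀ x ∈ A, 0 ≤ s x ∧ s x < 1) → ∀ k : ℕ,
        ENNReal.ofReal ((2 ^ k : ℝ) ^ (-(2 * σ))) * QE (V k) s h A ≤
          ENNReal.ofReal (D * (Tk (ms A s) ((2 * σ - n * δ) / 2) δ k +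
            2 ^ (-((2 * σ - n * δ) / 2) * (k : ℝ)) * ms A s 0 0 ^ (1 + δ) +
            2 ^ (-((2 * σ - n * δ) / 2) * (k : ℝ)) * ms A s 0 0)) := by
  obtain ⟨Ct, hCt⟩ := time_step hK r
  set c : ℝ := (2 * σ - n * δ) / 2 with hc
  have hc0 : 0 < c := by linarith
  have hnδ : 0 ≤ n * δ := by positivity
  have hcσ : c ≤ σ := by linarith
  have ha₁ : 2 * σ - n * δ = 2 * c := by linarith
  have hb : 1 < (2 : ℝ) ^ c := Real.one_lt_rpow (by norm_num) hc0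
  have hb1 : ((2 : ℝ) ^ c)⁻¹ < 1 := inv_lt_one_of_one_lt₀ hb
  have hb2 : 0 < 1 - ((2 : ℝ) ^ c)⁻¹ := by linarith
  set L : ℝ := (1 - (2 ^ c : ℝ)⁻¹)⁻¹ with hL
  have hL0 : 0 < L := by positivity
  refine ⟨Ct * (L * C) + Ct + 1, by positivity, fun A s h a hA k => ?_⟩
  set m : ℕ → ℕ → ℝ := ms A s with hm
  have hm0 : ∀ k l, 0 ≤ m k l := ms_nonneg A s
  have hadd : ∀ k l, m k l = m (k + 1) (2 * l) + m (k + 1) (2 * l + 1) := fun k l => ms_split a k l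
  have hF0 : F A s 0 0 = A := by
    refine inter_eq_left.2 fun x hx => ?_
    have h1 := hA x hx
    change tc s 0 x = 0
    unfold tc
    rw [Nat.floor_eq_zero]
    simpa using h1.2
  have hvA : volume A = ENNReal.ofReal (m 0 0) := by
    rw [hm, ms, hF0, ENNReal.ofReal_toReal a.vol.ne]
  set w : ℝ := (2 ^ k : ℝ) ^ (-(2 * σ)) with hw
  have hw0 : 0 ≤ w := by positivity
  set S : ℕ → ℝ := fun l => ∑ j ∈ Finset.range (k + 1), (2 ^ c : ℝ) ^ j *
    ((2 ^ k : ℝ) ^ (2 * σ) * (2 ^ j : ℝ) ^ (-(2 * c)) * mu m k l k j ^ (1 + δ) + mu m k l k j) with hS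
  have hS0 : ∀ l, 0 ≤ S l := fun l => Finset.sum_nonneg fun j _ => by
    have := mu_nonneg hm0 k l k j
    positivity
  have h2 := hCt k A s h a hA
  have h3 : ∑ l ∈ Finset.range (2 ^ k), QE (V k) s h (F A s k l) ≤
      ENNReal.ofReal (L * C * ∑ l ∈ Finset.range (2 ^ k), S l) := by
    rw [Finset.mul_sum, ENNReal.ofReal_sum_of_nonneg fun l _ => by
      have := hS0 l
      positivity]
    refine Finset.sum_le_sum fun l _ => (node hδ hc0 hK hcube a hA k l).trans (le_of_eq ?_)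
    rw [mul_assoc, ha₁]
  have h4 := one_scale hm0 hadd hδ hc0 hcσ k
  have h5 : w * ((2 : ℝ) ^ k)⁻¹ ≤ 2 ^ (-c * (k : ℝ)) := by
    have h6 : ((2 : ℝ) ^ k)⁻¹ ≤ 1 := inv_le_one_of_one_le₀ (one_le_pow₀ one_le_two)
    refine (mul_le_of_le_one_right hw0 h6).trans ?_
    rw [hw, ← Real.rpow_natCast, ← Real.rpow_mul (by norm_num)]
    refine Real.rpow_le_rpow_of_exponent_le one_le_two ?_
    have : (0 : ℝ) ≤ k := Nat.cast_nonneg k
    nlinarith
  have g1 : 0 ≤ L * C * ∑ l ∈ Finset.range (2 ^ k), S l :=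
    mul_nonneg (by positivity) (Finset.sum_nonneg fun l _ => hS0 l)
  have g2 : 0 ≤ ((2 : ℝ) ^ k)⁻¹ * m 0 0 := mul_nonneg (by positivity) (hm0 _ _)
  calc ENNReal.ofReal w * QE (V k) s h A
      ≤ ENNReal.ofReal w * (Ct * ENNReal.ofReal (L * C * ∑ l ∈ Finset.range (2 ^ k), S l) +
        Ct * (ENNReal.ofReal (((2 : ℝ) ^ k)⁻¹) * ENNReal.ofReal (m 0 0))) := by
        rw [← hvA]
        refine mul_le_mul_right (h2.trans ?_) _
        gcongr
    _ = ENNReal.ofReal (w * (Ct * (L * C * ∑ l ∈ Finset.range (2 ^ k), S l) +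
        Ct * (((2 : ℝ) ^ k)⁻¹ * m 0 0))) := by
        rw [ENNReal.ofReal_mul hw0, ENNReal.ofReal_add (by positivity) (by positivity),
          ENNReal.ofReal_mul (NNReal.coe_nonneg Ct), ENNReal.ofReal_mul (NNReal.coe_nonneg Ct),
          ENNReal.ofReal_mul (by positivity : 0 ≤ ((2 : ℝ) ^ k)⁻¹), ENNReal.ofReal_coe_nnreal]
    _ ≤ _ := by
        refine ENNReal.ofReal_le_ofReal ?_
        have e1 : w * (Ct * (L * C * ∑ l ∈ Finset.range (2 ^ k), S l) +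
            Ct * (((2 : ℝ) ^ k)⁻¹ * m 0 0)) =
            Ct * (L * C) * ∑ l ∈ Finset.range (2 ^ k), w * S l +
            Ct * (w * ((2 : ℝ) ^ k)⁻¹ * m 0 0) := by
          rw [← Finset.mul_sum]
          ring
        have p1 := Tk_nonneg hm0 c δ k
        have p0 := hm0 0 0
        have p2 : 0 ≤ (2 : ℝ) ^ (-c * (k : ℝ)) * m 0 0 ^ (1 + δ) := by positivity
        have p3 : 0 ≤ (2 : ℝ) ^ (-c * (k : ℝ)) * m 0 0 := by positivity
        have q1 := mul_le_mul_of_nonneg_left h4 (by positivity : (0 : ℝ) ≤ Ct * (L * C))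
        have q2 : (Ct : ℝ) * (w * ((2 : ℝ) ^ k)⁻¹ * m 0 0) ≤ Ct * (2 ^ (-c * (k : ℝ)) * m 0 0) := by
          gcongr
        have q3 : (0 : ℝ) ≤ Ct := Ct.coe_nonneg
        rw [e1]
        nlinarith [mul_nonneg q3 p1, mul_nonneg q3 p2]

/-- **the sum over the scales with exponent `θ`**, for times in `[0,1)` -/
theorem scales_rpow {σ δ l θ : ℝ} (hσ : 0 < σ) (hδ : 0 < δ) (hσδ : n * δ < 2 * σ) (hl0 : 0 < l)
    (hlδ : l ≤ δ) (hl1 : l ≤ 1)
    (hlc : ((2 * σ - n * δ) / 2 + n) * l < (2 * σ - n * δ) / 2)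
    (h0 : 0 < θ) (h1 : θ ≤ 1) (hθ : 1 < (1 + l) * θ) (hK : KB V A₀ C₀) {C : ℝ≥0}
    (hcube : ∀ (k j : ℕ), j ≤ k → ∀ (r : ℕ) (A : Set (E n)) (s : E n → ℝ) (h : E n → ℂ),
      Adm r A s h → ∀ τ₀ : ℝ, (∀ x ∈ A, τ₀ ≤ s x ∧ s x ≤ τ₀ + ((2 : ℝ) ^ (k + j))⁻¹) →
      QE (V k) s h A ≤ C * (ENNReal.ofReal ((2 ^ k : ℝ) ^ (2 * σ) * (2 ^ j : ℝ) ^ (-(2 * σ - n * δ))) *
        volume A ^ (1 + δ)) + C * volume A) (r : ℕ) :
    ∃ D : ℝ≥0, ∀ (A : Set (E n)) (s : E n → ℝ) (h : E n → ℂ), Adm r A s h →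
      (∀ x ∈ A, 0 ≤ s x ∧ s x < 1) →
        ∑' k : ℕ, (ENNReal.ofReal ((2 ^ k : ℝ) ^ (-(2 * σ))) * QE (V k) s h A) ^ θ ≤
          D * volume A ^ ((1 + l) * θ) := by
  obtain ⟨D, hD, hsc⟩ := scale_le hδ hσδ hK hcube r
  set c : ℝ := (2 * σ - n * δ) / 2 with hc
  have hc0 : 0 < c := by linarith
  set e : ℝ := c - (c + n) * l with he
  have he0 : 0 < e := by linarith
  have hd : 1 < (1 + δ) * θ := hθ.trans_le (by gcongr)
  set bb : ℝ := (volume (Metric.ball (0 : E n) r)).toReal with hbb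
  have hbb0 : 0 ≤ bb := ENNReal.toReal_nonneg
  set P₁ : ℝ := 1 / (((1 + δ) * θ - 1) * (1 - 2 ^ (-(c * θ)))) with hP₁
  set P₂ : ℝ := 1 / (1 - 2 ^ (-(c * θ))) with hP₂
  set P₃ : ℝ := 1 / (1 - 2 ^ (-(e * θ))) with hP₃
  have g1 : 0 < 1 - (2 : ℝ) ^ (-(c * θ)) := by
    have : (2 : ℝ) ^ (-(c * θ)) < 1 :=
      Real.rpow_lt_one_of_one_lt_of_neg (by norm_num) (neg_lt_zero.2 (by positivity))
    linarith
  have g2 : 0 < 1 - (2 : ℝ) ^ (-(e * θ)) := by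
    have : (2 : ℝ) ^ (-(e * θ)) < 1 :=
      Real.rpow_lt_one_of_one_lt_of_neg (by norm_num) (neg_lt_zero.2 (by positivity))
    linarith
  have g3 : 0 < (1 + δ) * θ - 1 := by linarith
  have hP₁0 : 0 ≤ P₁ := by positivity
  have hP₂0 : 0 ≤ P₂ := by positivity
  have hP₃0 : 0 ≤ P₃ := by positivity
  set D' : ℝ := D ^ (1 - l) * (8 ^ n) ^ l with hD'
  set Cf : ℝ := D ^ θ * (P₁ + P₂) * bb ^ ((δ - l) * θ) + D' ^ θ * P₃ with hCf
  have hCf0 : 0 ≤ Cf := by positivity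
  refine ⟨Cf.toNNReal, fun A s h a hA => ?_⟩
  set m : ℕ → ℕ → ℝ := ms A s with hm
  have hm0 : ∀ k l, 0 ≤ m k l := ms_nonneg A s
  have hadd : ∀ k l, m k l = m (k + 1) (2 * l) + m (k + 1) (2 * l + 1) := fun k l => ms_split a k l
  have hF0 : F A s 0 0 = A := by
    refine inter_eq_left.2 fun x hx => ?_
    have h1 := hA x hx
    change tc s 0 x = 0
    unfold tc
    rw [Nat.floor_eq_zero]
    simpa using h1.2
  have hm00 : m 0 0 = (volume A).toReal := by rw [hm, ms, hF0]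
  have hvA : volume A = ENNReal.ofReal (m 0 0) := by
    rw [hm00, ENNReal.ofReal_toReal a.vol.ne]
  have hmb : m 0 0 ≤ bb := by
    rw [hm00]
    exact ENNReal.toReal_mono measure_ball_lt_top.ne (measure_mono a.sub)
  set μ : ℝ := m 0 0 with hμ
  have hμ0 : 0 ≤ μ := hm0 0 0
  have hk : ∀ k : ℕ, (ENNReal.ofReal ((2 ^ k : ℝ) ^ (-(2 * σ))) * QE (V k) s h A) ^ θ ≤
      ENNReal.ofReal (D ^ θ * Tk m c δ k ^ θ + D ^ θ * μ ^ ((1 + δ) * θ) * 2 ^ (-(c * θ) * (k : ℝ)) +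
        D' ^ θ * μ ^ ((1 + l) * θ) * 2 ^ (-(e * θ) * (k : ℝ))) := by
    intro k
    have p1 := Tk_nonneg hm0 c δ k
    have a1 := hsc A s h a hA k
    have a2 : ENNReal.ofReal ((2 ^ k : ℝ) ^ (-(2 * σ))) * QE (V k) s h A ≤
        ENNReal.ofReal ((2 * 2 ^ (k + 2)) ^ n * μ ^ 2) := by
      rw [hm00]
      refine le_trans (mul_le_of_le_one_left' (ENNReal.ofReal_le_one.2 ?_))
        (QE_triv (by positivity) (hK.le1 k) (hK.supp k) a)
      exact Real.rpow_le_one_of_one_le_of_nonpos (one_le_pow₀ one_le_two) (by linarith)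
    set x : ℝ := D * (2 ^ (-c * (k : ℝ)) * μ) with hx
    set y : ℝ := (2 * 2 ^ (k + 2)) ^ n * μ ^ 2 with hy
    have hx0 : 0 ≤ x := by positivity
    have hy0 : 0 ≤ y := by positivity
    have a3 : min x y ≤ D' * μ ^ (1 + l) * 2 ^ (-e * (k : ℝ)) := by
      refine (min_le_geo hx0 hy0 hl0.le hl1).trans (le_of_eq ?_)
      have e1 : y = 8 ^ n * (2 ^ ((n : ℝ) * k) * μ ^ (2 : ℝ)) := by
        rw [hy, Real.rpow_mul (by norm_num), Real.rpow_natCast, Real.rpow_natCast, Real.rpow_two,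
          ← pow_mul, mul_comm n k, pow_mul, ← mul_assoc, ← mul_pow]
        congr 2
        ring
      have e2 : μ ^ (1 + l) = μ ^ (1 - l) * μ ^ (2 * l) := by
        rw [← Real.rpow_add' hμ0 (by linarith)]
        congr 1
        ring
      have e3 : (2 : ℝ) ^ (-e * (k : ℝ)) = 2 ^ (-c * (k : ℝ) * (1 - l)) * 2 ^ ((n : ℝ) * k * l) := by
        rw [← Real.rpow_add two_pos]
        congr 1
        rw [he]
        ring
      rw [e1, hx, Real.mul_rpow hD.le (by positivity), Real.mul_rpow (by positivity) hμ0,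
        Real.mul_rpow (by positivity) (by positivity), Real.mul_rpow (by positivity) (by positivity),
        ← Real.rpow_mul (by norm_num : (0 : ℝ) ≤ 2), ← Real.rpow_mul (by norm_num : (0 : ℝ) ≤ 2),
        ← Real.rpow_mul hμ0, e2, e3, hD']
      ring
    have a4 : ENNReal.ofReal ((2 ^ k : ℝ) ^ (-(2 * σ))) * QE (V k) s h A ≤
        ENNReal.ofReal (D * Tk m c δ k + D * μ ^ (1 + δ) * 2 ^ (-c * (k : ℝ)) +
          D' * μ ^ (1 + l) * 2 ^ (-e * (k : ℝ))) := by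
      have p2 : 0 ≤ D * Tk m c δ k := by positivity
      have p3 : 0 ≤ D * μ ^ (1 + δ) * 2 ^ (-c * (k : ℝ)) := by positivity
      rcases le_total x y with hxy | hxy
      · rw [min_eq_left hxy] at a3
        refine a1.trans (ENNReal.ofReal_le_ofReal ?_)
        rw [hx] at a3
        linarith
      · rw [min_eq_right hxy] at a3
        exact a2.trans (ENNReal.ofReal_le_ofReal (by linarith))
    refine (ENNReal.rpow_le_rpow a4 h0.le).trans ?_
    rw [ENNReal.ofReal_rpow_of_nonneg (by positivity) h0.le]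
    refine ENNReal.ofReal_le_ofReal ?_
    refine (Real.rpow_add_le_add_rpow (by positivity) (by positivity) h0.le h1).trans ?_
    refine add_le_add ((Real.rpow_add_le_add_rpow (by positivity) (by positivity) h0.le h1).trans
      (add_le_add (le_of_eq ?_) (le_of_eq ?_))) (le_of_eq ?_)
    · rw [Real.mul_rpow hD.le p1]
    · rw [Real.mul_rpow (by positivity) (by positivity), Real.mul_rpow hD.le (by positivity),
        ← Real.rpow_mul hμ0, ← Real.rpow_mul (by norm_num : (0 : ℝ) ≤ 2)]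
      congr 2
      ring
    · rw [Real.mul_rpow (by positivity) (by positivity),
        Real.mul_rpow (by positivity) (by positivity),
        ← Real.rpow_mul hμ0, ← Real.rpow_mul (by norm_num : (0 : ℝ) ≤ 2)]
      congr 2
      ring
  rw [ENNReal.tsum_eq_iSup_nat]
  refine iSup_le fun K => (Finset.sum_le_sum fun k _ => hk k).trans ?_
  rw [← ENNReal.ofReal_sum_of_nonneg (fun k _ => by
    have := Tk_nonneg hm0 c δ k
    positivity), hvA, ENNReal.ofReal_rpow_of_nonneg hμ0 (by positivity)]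
  have e1 : ((Cf.toNNReal : ℝ≥0) : ℝ≥0∞) = ENNReal.ofReal Cf := rfl
  rw [e1, ← ENNReal.ofReal_mul hCf0]
  refine ENNReal.ofReal_le_ofReal ?_
  rw [Finset.sum_add_distrib, Finset.sum_add_distrib, ← Finset.mul_sum, ← Finset.mul_sum,
    ← Finset.mul_sum]
  have b1 := Tk_sum hm0 hadd hc0 h0 h1 hd K
  have b2 := sum_two_rpow_neg_le (show 0 < c * θ by positivity) K
  have b3 := sum_two_rpow_neg_le (show 0 < e * θ by positivity) K
  have b4 : μ ^ ((1 + δ) * θ) ≤ bb ^ ((δ - l) * θ) * μ ^ ((1 + l) * θ) := by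
    have e2 : μ ^ ((1 + δ) * θ) = μ ^ ((δ - l) * θ) * μ ^ ((1 + l) * θ) := by
      rw [← Real.rpow_add' hμ0 (by nlinarith)]
      congr 1
      ring
    rw [e2]
    exact mul_le_mul_of_nonneg_right
      (Real.rpow_le_rpow hμ0 hmb (mul_nonneg (by linarith) h0.le)) (by positivity)
  calc D ^ θ * ∑ k ∈ Finset.range K, Tk m c δ k ^ θ +
        D ^ θ * μ ^ ((1 + δ) * θ) * ∑ k ∈ Finset.range K, (2 : ℝ) ^ (-(c * θ) * (k : ℝ)) +
        D' ^ θ * μ ^ ((1 + l) * θ) * ∑ k ∈ Finset.range K, (2 : ℝ) ^ (-(e * θ) * (k : ℝ))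
      ≤ D ^ θ * (P₁ * μ ^ ((1 + δ) * θ)) + D ^ θ * μ ^ ((1 + δ) * θ) * P₂ +
        D' ^ θ * μ ^ ((1 + l) * θ) * P₃ := by gcongr
    _ = D ^ θ * (P₁ + P₂) * μ ^ ((1 + δ) * θ) + D' ^ θ * P₃ * μ ^ ((1 + l) * θ) := by ring
    _ ≤ D ^ θ * (P₁ + P₂) * (bb ^ ((δ - l) * θ) * μ ^ ((1 + l) * θ)) +
        D' ^ θ * P₃ * μ ^ ((1 + l) * θ) := by gcongr
    _ = Cf * μ ^ ((1 + l) * θ) := by rw [hCf]; ring

end Vale.Agent.N076
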