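import Vale.Agent.N076.Max
import Vale.Agent.P076N.Fin

/-!
# P076: the single-scale estimate in every dimension `n ≥ 2`
-/

open MeasureTheory

namespace Vale.Agent.N076

open Vale.Agent.P076 Vale.Agent.P076N

theorem slat_all {n : ℕ} (hn : 2 ≤ n) : H618.SLat n (critExp n) := by
  rcases hn.eq_or_lt with h | h
  · subst h
    have e : critExp 2 = 1 / 3 := by norm_num [critExp]
    rw [e]
    exact H618.SLat_of_StS (ASM.stASM Main.stTS Main.stNSf)
  · exact slat_of_ss n ((blocks KEY.key).ss n h)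

theorem critExp_pos {n : ℕ} (hn : 2 ≤ n) : 0 < critExp n := by
  unfold critExp
  have : (0 : ℝ) < n := by exact_mod_cast (by omega : 0 < n)
  positivity

theorem q1 {n : ℕ} (hn : 2 ≤ n) (f g : (Fin n → ℝ) → ℂ) (hfg : IsFourierPair f g)
    (h : sobolev g (critExp n) < ⊤) : ∀ᵐ x, ConvAt f g x := by
  obtain ⟨q, -, h1, h2, -⟩ := main_of_SLat (critExp_pos hn) (slat_all hn)
  exact (h2 f g hfg ((h1 f g hfg).trans_lt (ENNReal.mul_lt_top (by simp) h))).1

end Vale.Agent.N076
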