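import Vale.Agent.N076.Scale

/-!
# P076: the weak type maximal estimate for data in a Besov space
-/

open MeasureTheory Complex FourierTransform Filter Topology Set
open scoped ENNReal NNReal

namespace Vale.Agent.N076

open Vale.Agent.P076 Vale.Agent.P076.H791 Vale.Agent.P076.R2.H45 Vale.Agent.P076.H263
  Vale.Agent.P076.H618

variable {n : ℕ} {s : E n → ℝ} {h G : E n → ℂ} {A : Set (E n)} {r : ℕ}

/-- the dyadic shell -/
def Sh (n j : ℕ) : Set (E n) :=
  {η | 2 ^ j ≤ 2 * Real.pi * ‖η‖ ∧ 2 * Real.pi * ‖η‖ < 2 ^ (j + 1)}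

lemma measurableSet_Sh (j : ℕ) : MeasurableSet (Sh n j) :=
  (measurableSet_le measurable_const (measurable_norm.const_mul _)).inter
    (measurableSet_lt (measurable_norm.const_mul _) measurable_const)

/-- the size of the data on a shell -/
noncomputable def aB (σ : ℝ) (G : E n → ℂ) (j : ℕ) : ℝ≥0∞ :=
  ENNReal.ofReal (2 ^ (j * σ)) * (∫⁻ η in Sh n j, ‖G η‖ₑ ^ 2) ^ (1 / 2 : ℝ)

/-- the Besov norm -/
noncomputable def NB (σ q : ℝ) (G : E n → ℂ) : ℝ≥0∞ :=
  (∫⁻ η, ‖G η‖ₑ ^ 2) ^ (1 / 2 : ℝ) + (∑' j, aB σ G j ^ q) ^ (1 / q)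

lemma cs {X : Type*} [MeasurableSpace X] (μ : Measure X) {f g : X → ℝ≥0∞} (hf : Measurable f)
    (hg : Measurable g) :
    ∫⁻ x, f x * g x ∂μ ≤ (∫⁻ x, f x ^ 2 ∂μ) ^ (1 / 2 : ℝ) * (∫⁻ x, g x ^ 2 ∂μ) ^ (1 / 2 : ℝ) := by
  have := ENNReal.lintegral_mul_le_Lp_mul_Lq μ Real.HolderConjugate.two_two hf.aemeasurable
    hg.aemeasurable
  simpa only [ENNReal.rpow_two, Pi.mul_apply] using this

lemma holder_tsum {p q : ℝ} (hpq : p.HolderConjugate q) (f g : ℕ → ℝ≥0∞) :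
    ∑' j, f j * g j ≤ (∑' j, f j ^ p) ^ (1 / p) * (∑' j, g j ^ q) ^ (1 / q) := by
  have := ENNReal.lintegral_mul_le_Lp_mul_Lq Measure.count hpq
    (measurable_from_top (f := f)).aemeasurable (measurable_from_top (f := g)).aemeasurable
  simpa only [lintegral_count, Pi.mul_apply] using this

lemma tsum_sub_le (e : ℕ → ℝ≥0∞) (d : ℕ) : ∑' j, e (j - d) ≤ (d + 1) * ∑' j, e j := by
  rw [← ENNReal.summable.sum_add_tsum_nat_add' (f := fun j => e (j - d)) (k := d), add_mul, one_mul]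
  simp only [Nat.add_sub_cancel]
  refine add_le_add ?_ le_rfl
  calc ∑ j ∈ Finset.range d, e (j - d) ≤ ∑ _j ∈ Finset.range d, ∑' j, e j :=
        Finset.sum_le_sum fun j _ => ENNReal.le_tsum _
    _ = _ := by simp

/-- the high frequencies of a shell are covered by the bumps -/
lemma cover : ∃ L : ℕ, ∀ (j : ℕ) (η : E n), η ∈ Sh n j → (¬ ∀ i, |η i| ≤ 1) →
    ∃ i : Fin n, ∃ d ∈ Finset.range (L + 1), Vs i (j - d) η = 1 := by
  obtain ⟨L, hL⟩ := pow_unbounded_of_one_lt (4 * Real.pi * √n) (one_lt_two (α := ℝ))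
  refine ⟨L, fun j η hη hall => ?_⟩
  push Not at hall
  obtain ⟨j₀, hj₀⟩ := hall
  obtain ⟨i, -, hi⟩ := Finset.exists_max_image Finset.univ (fun j => |η j|) ⟨j₀, Finset.mem_univ j₀⟩
  have hi1 : 1 ≤ |η i| := hj₀.le.trans (hi j₀ (Finset.mem_univ _))
  obtain ⟨k, hk1, hk2⟩ := exists_nat_pow_near hi1 (by norm_num : (1 : ℝ) < 2)
  have h2k : (0 : ℝ) < 2 ^ k := by positivity
  have hpi := Real.pi_gt_three
  have hkj : k ≤ j := by
    have h3 : (2 : ℝ) ^ k ≤ ‖η‖ := hk1.trans (abs_le_norm η i)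
    have h4 : (2 : ℝ) ^ k < 2 ^ (j + 1) := by nlinarith [hη.2, norm_nonneg η]
    have := (pow_lt_pow_iff_right₀ (one_lt_two (α := ℝ))).1 h4
    omega
  have hjk : j ≤ k + L := by
    have h3 := norm_le_of_coord (η := η) (R := 2 ^ (k + 1)) (by positivity)
      (fun j => (hi j (Finset.mem_univ _)).trans hk2.le)
    rw [Real.sqrt_mul (Nat.cast_nonneg n), Real.sqrt_sq (by positivity)] at h3
    have h4 : (2 : ℝ) ^ j ≤ 2 ^ (k + L) := by
      calc (2 : ℝ) ^ j ≤ 2 * Real.pi * ‖η‖ := hη.1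
        _ ≤ 2 * Real.pi * (√n * 2 ^ (k + 1)) := by gcongr
        _ = 4 * Real.pi * √n * 2 ^ k := by ring
        _ ≤ 2 ^ L * 2 ^ k := by gcongr
        _ = 2 ^ (k + L) := by ring
    exact (pow_le_pow_iff_right₀ (one_lt_two (α := ℝ))).1 h4
  refine ⟨i, j - k, Finset.mem_range.2 (by omega), ?_⟩
  rw [show j - (j - k) = k by omega]
  refine Finset.prod_eq_one fun j _ => ?_
  have hj : |((2 : ℝ) ^ k)⁻¹ * η j| ≤ 2 := by
    rw [abs_mul, abs_of_pos (by positivity), ← div_eq_inv_mul, div_le_iff₀ h2k]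
    have := hi j (Finset.mem_univ _)
    simp only at this
    rw [pow_succ] at hk2
    linarith
  unfold fj
  split_ifs with hji
  · subst hji
    refine sh_one ?_ hj
    rw [abs_mul, abs_of_pos (by positivity), ← div_eq_inv_mul, le_div_iff₀ h2k, one_mul]
    exact hk1
  · exact b4_one hj

/-- the dual Besov estimate -/
def TB (n : ℕ) (σ l θ : ℝ) : Prop := ∀ (i : Fin n) (r : ℕ), ∃ D : ℝ≥0,
  ∀ (A : Set (E n)) (s : E n → ℝ) (h : E n → ℂ), Adm r A s h → (∀ x ∈ A, 0 ≤ s x ∧ s x < 1) →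
    ∑' k : ℕ, (ENNReal.ofReal ((2 ^ k : ℝ) ^ (-(2 * σ))) * QE (Vs i k) s h A) ^ θ ≤
      D * volume A ^ ((1 + l) * θ)

theorem TB_of_SLat {σ : ℝ} (hσ : 0 < σ) (hS : SLat n σ) :
    ∃ l : ℝ, 0 < l ∧ l < 1 ∧ ∀ θ : ℝ, 0 < θ → θ ≤ 1 → 1 < (1 + l) * θ → TB n σ l θ := by
  obtain ⟨C, δ, hC, hδ, hδ1, hδσ, hN⟩ := normal hσ hS
  obtain ⟨C', hC', hsm⟩ := small hN hC hδ hδ1
  set c : ℝ := (2 * σ - n * δ) / 2 with hc
  have hc0 : 0 < c := by linarith
  have hn : (0 : ℝ) ≤ n := Nat.cast_nonneg n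
  have hcn : 0 < c + n := by linarith
  have h1 : min δ (c / (c + n) / 2) ≤ δ := min_le_left _ _
  refine ⟨min δ (c / (c + n) / 2), lt_min hδ (by positivity), by linarith,
    fun θ h0 hθ1 hθ i r => ?_⟩
  obtain ⟨A₀, C₀, hK⟩ := kb i
  obtain ⟨Cc, hCc⟩ := cube_step hδ hC' hsm hK
  refine scales_rpow hσ hδ hδσ (lt_min hδ (by positivity)) h1 (by linarith) ?_ h0 hθ1 hθ hK hCc r
  calc (c + n) * min δ (c / (c + n) / 2) ≤ (c + n) * (c / (c + n) / 2) :=
        mul_le_mul_of_nonneg_left (min_le_right _ _) hcn.le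
    _ = c / 2 := by field_simp
    _ < c := by linarith

/-- the pairing with Besov data, for times in `[0,1)` -/
theorem pairing {σ l q q' : ℝ} (hσ : 0 ≤ σ) (hl0 : 0 ≤ l) (hl1 : l ≤ 1)
    (hq : q'.HolderConjugate q) (hq2 : q' ≤ 2)
    (hT : TB n σ l (q' / 2)) (r : ℕ) : ∃ D : ℝ≥0, ∀ (A : Set (E n)) (s : E n → ℝ) (h : E n → ℂ),
      Adm r A s h → (∀ x ∈ A, 0 ≤ s x ∧ s x < 1) → ∀ G : E n → ℂ, Measurable G →
      ∫⁻ η, ‖Phi A s h η‖ₑ * ‖G η‖ₑ ≤ D * volume A ^ ((1 + l) / 2) * NB σ q G := by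
  obtain ⟨L, hL⟩ := cover (n := n)
  choose D hD using fun i => hT i r
  have hq0 : 0 < q' := hq.pos
  set θ : ℝ := q' / 2 with hθ
  have h0 : 0 < θ := by positivity
  have h1 : θ ≤ 1 := by linarith
  set D₁ : ℝ≥0∞ := ENNReal.ofReal ((2 * 1) ^ n) ^ (1 / 2 : ℝ) *
    volume (Metric.ball (0 : E n) r) ^ ((1 - l) / 2) with hD₁
  set D₂ : ℝ≥0∞ := (∑ i : Fin n, ∑ d ∈ Finset.range (L + 1), ((d : ℝ≥0∞) + 1) * D i) ^ (1 / q')
    with hD₂
  have hD₁t : D₁ ≠ ⊤ := ENNReal.mul_ne_top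
    (ENNReal.rpow_ne_top_of_nonneg (by norm_num) ENNReal.ofReal_ne_top)
    (ENNReal.rpow_ne_top_of_nonneg (by linarith) measure_ball_lt_top.ne)
  have hD₂t : D₂ ≠ ⊤ := ENNReal.rpow_ne_top_of_nonneg (by positivity)
    (ENNReal.sum_ne_top.2 fun i _ => ENNReal.sum_ne_top.2 fun d _ => by finiteness)
  refine ⟨(D₁ + D₂).toNNReal, fun A s h a hA G hG => ?_⟩
  rw [ENNReal.coe_toNNReal (ENNReal.add_ne_top.2 ⟨hD₁t, hD₂t⟩)]
  set Lo : Set (E n) := {η | ∀ i, |η i| ≤ 1} with hLo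
  have hLom : MeasurableSet Lo := measurableSet_absCube 1
  have hPm : Measurable fun η => ‖Phi A s h η‖ₑ := (measurable_Phi a.ms a.mh).enorm
  have hcov : (univ : Set (E n)) ⊆ Lo ∪ ⋃ j, (Sh n j \ Lo) := by
    intro η _
    by_cases hη : η ∈ Lo
    · exact Or.inl hη
    · have h2 : ¬ ∀ i, |η i| ≤ 1 := hη
      push Not at h2
      obtain ⟨i, hi⟩ := h2
      have h3 : 1 ≤ 2 * Real.pi * ‖η‖ := by
        have := abs_le_norm η i
        nlinarith [Real.pi_gt_three]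
      obtain ⟨j, hj1, hj2⟩ := exists_nat_pow_near h3 (by norm_num : (1 : ℝ) < 2)
      exact Or.inr (mem_iUnion.2 ⟨j, ⟨hj1, hj2⟩, hη⟩)
  -- low frequencies
  have hlow : ∫⁻ η in Lo, ‖Phi A s h η‖ₑ * ‖G η‖ₑ ≤
      D₁ * volume A ^ ((1 + l) / 2) * (∫⁻ η, ‖G η‖ₑ ^ 2) ^ (1 / 2 : ℝ) := by
    refine (cs _ hPm hG.enorm).trans (mul_le_mul' ?_
      (ENNReal.rpow_le_rpow (setLIntegral_le_lintegral _ _) (by norm_num)))
    have h2 : ∫⁻ η in Lo, ‖Phi A s h η‖ₑ ^ 2 ≤ ENNReal.ofReal ((2 * 1) ^ n) * volume A ^ 2 := by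
      calc ∫⁻ η in Lo, ‖Phi A s h η‖ₑ ^ 2 ≤ ∫⁻ _ in Lo, volume A ^ 2 := by
            refine lintegral_mono fun η => ?_
            gcongr
            rw [← ofReal_norm, ← ENNReal.ofReal_toReal a.vol.ne]
            exact ENNReal.ofReal_le_ofReal (norm_Phi_le a η)
        _ = _ := by rw [setLIntegral_const, hLo, vol_cube zero_le_one, mul_comm]
    refine (ENNReal.rpow_le_rpow h2 (by norm_num)).trans ?_
    rw [ENNReal.mul_rpow_of_nonneg _ _ (by norm_num), hD₁, mul_assoc, ← ENNReal.rpow_two,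
      ← ENNReal.rpow_mul]
    refine mul_le_mul_right ?_ _
    have e : volume A ^ ((2 : ℝ) * (1 / 2)) = volume A ^ ((1 - l) / 2) * volume A ^ ((1 + l) / 2) := by
      rw [← ENNReal.rpow_add_of_nonneg _ _ (by linarith) (by linarith)]
      congr 1
      ring
    rw [e]
    exact mul_le_mul_left (ENNReal.rpow_le_rpow (measure_mono a.sub) (by linarith)) _
  -- high frequencies
  set w : ℕ → ℝ≥0∞ := fun k => ENNReal.ofReal ((2 ^ k : ℝ) ^ (-(2 * σ))) with hw
  set b : ℕ → ℝ≥0∞ := fun j => (w j * ∫⁻ η in Sh n j \ Lo, ‖Phi A s h η‖ₑ ^ 2) ^ (1 / 2 : ℝ) with hb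
  have s1 : ∀ j, ∫⁻ η in Sh n j \ Lo, ‖Phi A s h η‖ₑ * ‖G η‖ₑ ≤ b j * aB σ G j := by
    intro j
    have e : w j ^ (1 / 2 : ℝ) * ENNReal.ofReal (2 ^ (j * σ)) = 1 := by
      rw [hw]
      simp only
      rw [ENNReal.ofReal_rpow_of_nonneg (by positivity) (by norm_num),
        ← ENNReal.ofReal_mul (by positivity), ← Real.rpow_natCast, ← Real.rpow_mul (by norm_num),
        ← Real.rpow_mul (by norm_num), ← Real.rpow_add two_pos]
      have : (j : ℝ) * (-(2 * σ) * (1 / 2)) + j * σ = 0 := by ring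
      rw [this, Real.rpow_zero, ENNReal.ofReal_one]
    refine (cs _ hPm hG.enorm).trans ?_
    rw [hb, aB]
    simp only
    rw [ENNReal.mul_rpow_of_nonneg _ _ (by norm_num), mul_mul_mul_comm, e, one_mul]
    exact mul_le_mul_right (ENNReal.rpow_le_rpow (lintegral_mono_set sdiff_subset) (by norm_num)) _
  have s3 : ∀ j, b j ^ q' ≤ ∑ i : Fin n, ∑ d ∈ Finset.range (L + 1),
      (w (j - d) * QE (Vs i (j - d)) s h A) ^ θ := by
    intro j
    have t1 : ∫⁻ η in Sh n j \ Lo, ‖Phi A s h η‖ₑ ^ 2 ≤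
        ∑ i : Fin n, ∑ d ∈ Finset.range (L + 1), QE (Vs i (j - d)) s h A := by
      have hm : ∀ i k, Measurable fun η => ENNReal.ofReal (Vs i k η) * ‖Phi A s h η‖ₑ ^ 2 :=
        fun i k => measurable_QE (Vs_cont i k).measurable a
      calc ∫⁻ η in Sh n j \ Lo, ‖Phi A s h η‖ₑ ^ 2
          ≤ ∫⁻ η in Sh n j \ Lo, ∑ i : Fin n, ∑ d ∈ Finset.range (L + 1),
            ENNReal.ofReal (Vs i (j - d) η) * ‖Phi A s h η‖ₑ ^ 2 := by
            refine setLIntegral_mono' ((measurableSet_Sh j).diff hLom) fun η hη => ?_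
            obtain ⟨i, d, hd, e⟩ := hL j η hη.1 hη.2
            refine le_trans ?_ (Finset.single_le_sum (f := fun i => ∑ d ∈ Finset.range (L + 1),
              ENNReal.ofReal (Vs i (j - d) η) * ‖Phi A s h η‖ₑ ^ 2) (fun _ _ => zero_le)
              (Finset.mem_univ i))
            refine le_trans ?_ (Finset.single_le_sum (f := fun d =>
              ENNReal.ofReal (Vs i (j - d) η) * ‖Phi A s h η‖ₑ ^ 2) (fun _ _ => zero_le) hd)
            simp only [e, ENNReal.ofReal_one, one_mul, le_refl]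
        _ ≤ ∫⁻ η, ∑ i : Fin n, ∑ d ∈ Finset.range (L + 1),
            ENNReal.ofReal (Vs i (j - d) η) * ‖Phi A s h η‖ₑ ^ 2 := setLIntegral_le_lintegral _ _
        _ = _ := by
            rw [lintegral_finsetSum _ fun i _ => Finset.measurable_sum _ fun d _ => hm i _]
            refine Finset.sum_congr rfl fun i _ => ?_
            rw [lintegral_finsetSum _ fun d _ => hm i _]
            rfl
    have t2 : w j * ∫⁻ η in Sh n j \ Lo, ‖Phi A s h η‖ₑ ^ 2 ≤
        ∑ i : Fin n, ∑ d ∈ Finset.range (L + 1), w (j - d) * QE (Vs i (j - d)) s h A := by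
      refine (mul_le_mul_right t1 _).trans ?_
      rw [Finset.mul_sum]
      refine Finset.sum_le_sum fun i _ => ?_
      rw [Finset.mul_sum]
      refine Finset.sum_le_sum fun d _ => mul_le_mul_left (ENNReal.ofReal_le_ofReal ?_) _
      exact Real.rpow_le_rpow_of_nonpos (by positivity)
        (pow_le_pow_right₀ one_le_two (Nat.sub_le _ _)) (by linarith)
    have e : b j ^ q' = (w j * ∫⁻ η in Sh n j \ Lo, ‖Phi A s h η‖ₑ ^ 2) ^ θ := by
      rw [hb]
      simp only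
      rw [← ENNReal.rpow_mul, hθ]
      congr 1
      ring
    rw [e]
    refine (ENNReal.rpow_le_rpow t2 h0.le).trans ((erpow_sum_le _ _ h0 h1).trans ?_)
    exact Finset.sum_le_sum fun i _ => erpow_sum_le _ _ h0 h1
  have s4 : (∑' j, b j ^ q') ^ (1 / q') ≤ D₂ * volume A ^ ((1 + l) / 2) := by
    have t1 : ∑' j, b j ^ q' ≤ (∑ i : Fin n, ∑ d ∈ Finset.range (L + 1), ((d : ℝ≥0∞) + 1) * D i) *
        volume A ^ ((1 + l) * θ) := by
      refine (ENNReal.tsum_le_tsum s3).trans ?_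
      rw [Summable.tsum_finsetSum fun i _ => ENNReal.summable, Finset.sum_mul]
      refine Finset.sum_le_sum fun i _ => ?_
      rw [Summable.tsum_finsetSum fun i _ => ENNReal.summable, Finset.sum_mul]
      refine Finset.sum_le_sum fun d _ => ?_
      refine (tsum_sub_le (fun k => (w k * QE (Vs i k) s h A) ^ θ) d).trans ?_
      rw [mul_assoc]
      exact mul_le_mul_right (hD i A s h a hA) _
    refine (ENNReal.rpow_le_rpow t1 (by positivity)).trans (le_of_eq ?_)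
    rw [ENNReal.mul_rpow_of_nonneg _ _ (by positivity), ← ENNReal.rpow_mul, hθ]
    congr 2
    field_simp
  calc ∫⁻ η, ‖Phi A s h η‖ₑ * ‖G η‖ₑ
      ≤ ∫⁻ η in Lo ∪ ⋃ j, (Sh n j \ Lo), ‖Phi A s h η‖ₑ * ‖G η‖ₑ := by
        rw [← setLIntegral_univ]
        exact lintegral_mono_set hcov
    _ ≤ (∫⁻ η in Lo, ‖Phi A s h η‖ₑ * ‖G η‖ₑ) +
        ∑' j, ∫⁻ η in Sh n j \ Lo, ‖Phi A s h η‖ₑ * ‖G η‖ₑ :=
        (lintegral_union_le _ _ _).trans (add_le_add le_rfl (lintegral_iUnion_le _ _))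
    _ ≤ D₁ * volume A ^ ((1 + l) / 2) * (∫⁻ η, ‖G η‖ₑ ^ 2) ^ (1 / 2 : ℝ) +
        D₂ * volume A ^ ((1 + l) / 2) * (∑' j, aB σ G j ^ q) ^ (1 / q) := by
        refine add_le_add hlow ((ENNReal.tsum_le_tsum s1).trans ((holder_tsum hq _ _).trans ?_))
        exact mul_le_mul_left s4 _
    _ ≤ _ := by
        rw [NB, mul_add]
        gcongr
        · exact le_self_add
        · exact le_add_self

/-- **weak type estimate** for integrable data -/
theorem weak_nice {σ l q q' : ℝ} (hσ : 0 ≤ σ) (hl0 : 0 ≤ l) (hl1 : l < 1)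
    (hq : q'.HolderConjugate q) (hq2 : q' ≤ 2) (hT : TB n σ l (q' / 2)) (r : ℕ) :
    ∃ D : ℝ, 0 < D ∧ ∀ G : E n → ℂ, Measurable G → Integrable G → ∀ N ε : ℝ, 0 < N → 0 < ε →
      NB σ q G ≤ ENNReal.ofReal N →
      volume (mset G (Ioo (-(r : ℝ)) r) ε ∩ Metric.ball 0 r) ≤
        ENNReal.ofReal ((D * N / ε) ^ (2 / (1 - l))) := by
  obtain ⟨D, hD⟩ := pairing hσ hl0 hl1.le hq hq2 hT (r + 1)
  set T : Finset ℤ := Finset.Icc (-(r : ℤ)) r with hT'
  have hp : 1 ≤ 2 / (1 - l) := by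
    rw [le_div_iff₀ (by linarith)]
    linarith
  have hT1 : (1 : ℝ) ≤ T.card := by
    have : 0 < T.card := Finset.card_pos.2 ⟨0, by simp [hT']⟩
    exact_mod_cast this
  refine ⟨T.card * (D + 1), by positivity, fun G hGm hGi N ε hN hε hE => ?_⟩
  obtain ⟨s, hsm, hsb, hs⟩ := exists_time hGi r ε
  have hAm : MeasurableSet (mset G (Ioo (-(r : ℝ)) r) ε ∩ Metric.ball 0 r) :=
    (isOpen_mset hGi _ _).measurableSet.inter Metric.isOpen_ball.measurableSet
  have hsub : mset G (Ioo (-(r : ℝ)) r) ε ∩ Metric.ball 0 r ⊆ Metric.ball 0 r := inter_subset_right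
  have hs' : ∀ x ∈ mset G (Ioo (-(r : ℝ)) r) ε ∩ Metric.ball 0 r, ε < ‖evo G x (s x) 0‖ :=
    fun x hx => hs x hx.1
  generalize mset G (Ioo (-(r : ℝ)) r) ε ∩ Metric.ball 0 r = A at hAm hsub hs'
  have hAf : volume A < ⊤ := (measure_mono hsub).trans_lt measure_ball_lt_top
  have hzm : Measurable fun x => evo G x (s x) 0 := measurable_evo_time hGi hsm
  set c : E n → ℤ := fun x => ⌊s x⌋ with hc
  have hcm : Measurable c := Int.measurable_floor.comp hsm
  have hcT : ∀ x ∈ A, c x ∈ T := by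
    intro x _
    have h1 := abs_le.1 (hsb x)
    rw [hT', Finset.mem_Icc]
    constructor
    · rw [Int.le_floor]
      push_cast
      exact h1.1
    · have h2 : ((⌊s x⌋ : ℤ) : ℝ) ≤ (r : ℤ) := (Int.floor_le _).trans (by exact_mod_cast h1.2)
      exact_mod_cast h2
  have hcell : ∀ i ∈ T, MeasurableSet (cell A c i) :=
    fun i _ => hAm.inter (hcm (measurableSet_singleton i))
  set s' : E n → ℝ := fun x => Int.fract (s x) with hs''
  have hs'm : Measurable s' := measurable_fract.comp hsm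
  have key : ∀ i ∈ T, volume (cell A c i) ≤ ENNReal.ofReal (((D + 1) * N / ε) ^ (2 / (1 - l))) := by
    intro i hi
    have ha' : Adm (r + 1) (cell A c i) s' (fun x => cph (evo G x (s x) 0)) := by
      refine ⟨hcell i hi, ?_, hs'm, fun x => ?_, measurable_cph.comp hzm, fun x => norm_cph_le _⟩
      · refine (inter_subset_left.trans hsub).trans (Metric.ball_subset_ball ?_)
        push_cast
        linarith
      · have h1 := Int.fract_nonneg (s x)
        have h2 := (Int.fract_lt_one (s x)).le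
        rw [abs_of_nonneg h1]
        push_cast
        have : (0 : ℝ) ≤ r := Nat.cast_nonneg r
        linarith
    have hlow := lower hGi (hcell i hi) ha'.vol hsm (ε := ε) fun x hx => hs' x hx.1
    have hup := hD _ _ _ ha' (fun x _ => ⟨Int.fract_nonneg _, Int.fract_lt_one _⟩) G hGm
    have h1 : ENNReal.ofReal (∫ x in cell A c i, ‖evo G x (s x) 0‖) ≤
        ∫⁻ η, ‖Phi (cell A c i) s' (fun x => cph (evo G x (s x) 0)) η‖ₑ * ‖G η‖ₑ := by
      have h2 : ENNReal.ofReal (∫ x in cell A c i, ‖evo G x (s x) 0‖) =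
          ‖((∫ x in cell A c i, ‖evo G x (s x) 0‖ : ℝ) : ℂ)‖ₑ := by
        rw [← ofReal_norm, Complex.norm_real, Real.norm_eq_abs,
          abs_of_nonneg (integral_nonneg fun x => norm_nonneg _)]
      rw [h2, duality hGi hGm ha'.vol hsm]
      refine (enorm_integral_le_lintegral_enorm _).trans (lintegral_mono fun η => ?_)
      rw [enorm_mul, Phi_fract (hcell i hi) (fun x hx => hx.2) _ η]
    set v : ℝ := (volume : Measure (E n)).real (cell A c i) with hv
    have hv0 : 0 ≤ v := measureReal_nonneg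
    have hvA : volume (cell A c i) = ENNReal.ofReal v := (ofReal_measureReal ha'.vol.ne).symm
    have h3 : ε * v ≤ D * v ^ ((1 + l) / 2) * N := by
      have h4 := ((ENNReal.ofReal_le_ofReal hlow).trans h1).trans (hup.trans (mul_le_mul_right hE _))
      rw [hvA, ENNReal.ofReal_rpow_of_nonneg hv0 (by linarith), ← ENNReal.ofReal_coe_nnreal,
        ← ENNReal.ofReal_mul D.coe_nonneg, ← ENNReal.ofReal_mul (by positivity)] at h4
      exact (ENNReal.ofReal_le_ofReal_iff (by positivity)).1 h4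
    rw [hvA]
    refine ENNReal.ofReal_le_ofReal ?_
    rcases hv0.eq_or_lt with hz | hz
    · rw [← hz]
      positivity
    have h5 : v ^ ((1 - l) / 2) ≤ (D + 1) * N / ε := by
      have e : v = v ^ ((1 - l) / 2) * v ^ ((1 + l) / 2) := by
        rw [← Real.rpow_add hz]
        have : (1 - l) / 2 + (1 + l) / 2 = 1 := by ring
        rw [this, Real.rpow_one]
      have hp' : 0 < v ^ ((1 + l) / 2) := Real.rpow_pos_of_pos hz _
      rw [le_div_iff₀ hε]
      refine le_of_mul_le_mul_right ?_ hp'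
      calc v ^ ((1 - l) / 2) * ε * v ^ ((1 + l) / 2) = ε * v := by
            conv_rhs => rw [e]
            ring
        _ ≤ D * v ^ ((1 + l) / 2) * N := h3
        _ ≤ (D + 1) * N * v ^ ((1 + l) / 2) := by nlinarith [mul_pos hN hp']
    have h6 := Real.rpow_le_rpow (by positivity) h5 (show 0 ≤ 2 / (1 - l) by linarith)
    rw [← Real.rpow_mul hv0] at h6
    have e : (1 - l) / 2 * (2 / (1 - l)) = 1 := by
      have : 1 - l ≠ 0 := by linarith
      field_simp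
    rwa [e, Real.rpow_one] at h6
  rw [vol_cells hcell hcT]
  refine (Finset.sum_le_sum key).trans ?_
  rw [Finset.sum_const, nsmul_eq_mul, ← ENNReal.ofReal_natCast, ← ENNReal.ofReal_mul (by positivity)]
  refine ENNReal.ofReal_le_ofReal ?_
  have e : (T.card : ℝ) * (D + 1) * N / ε = T.card * ((D + 1) * N / ε) := by ring
  rw [e, Real.mul_rpow (by positivity) (by positivity)]
  refine mul_le_mul_of_nonneg_right ?_ (by positivity)
  calc (T.card : ℝ) = T.card ^ (1 : ℝ) := (Real.rpow_one _).symm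
    _ ≤ _ := Real.rpow_le_rpow_of_exponent_le hT1 hp

end Vale.Agent.N076
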